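import Vale.Agent.P370Z.BRIDGE.Main
import Vale.Agent.P370Z.MF.Main
import Vale.Agent.P370Z.MB.Up
import Vale.Agent.P370Z.MBLOW.Main
import Vale.Agent.P370Z.ASM.Main
import Vale.Agent.P370Z.GEO.Main
import Vale.Agent.P370Z.POIS.Main
import Vale.Agent.P370Z.SLAB.Main
import Vale.Agent.P370Z.SM.Main
import Vale.Agent.P370Z.PT.Main
import Vale.Agent.P370Z.NUM.Main
import Vale.Agent.P370Z.KIT.Struct
import Vale.Agent.P370Z.ZOSC.Main
import Vale.Agent.P370Z.DISC.Main
import Vale.Agent.P370Z.CH.Main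
import Vale.Agent.P370Z.GRID.Main
import Vale.Agent.P370Z.KIT.Main
import Vale.Agent.P370Z.KIT.Low
import Vale.Agent.P370Z.VALID.Main

/-! The blocks of the proof. -/
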