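import Vale.Agent.P370Z.Fin.Many

/-! The choice of the constants and the reduction. -/

namespace Vale.Agent.P370Z

open MeasureTheory Finset
open Vale.Agent.Lib.PolyTime (PT PBd Un Raw)

noncomputable section

theorem exists_best : ∃ (c : Cst) (A : ℝ), c.Best A ∧ (PT ∅ fun n : Un => c.pHat n.v) ∧
    PT ∅ fun n : Un => c.kHat n.v := by
  obtain ⟨pHat, kHat, hp, hk, hn⟩ := num
  have hC1 : 1 ≤ Cch := chain.choose_spec.choose_spec.1
  obtain ⟨H, hH⟩ := exists_nat_ge (2 * Cch + 1)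
  have hF1 : 1 ≤ CFf H := (f0_ok H).choose_spec.1
  obtain ⟨om, hom⟩ := exists_nat_ge (CFf H)
  have hom1 : 1 ≤ om := by exact_mod_cast hF1.trans hom
  have hρ : 2 * CFf H ≤ ((3 * om ^ 2 : ℕ) : ℝ) := by
    push_cast
    nlinarith
  have hω : (1 : ℝ) ≤ 3 * om := by linarith
  obtain ⟨kk, hkk⟩ : ∃ kk : ℕ, 1 + kch + grid.choose + geo.choose + asm3.choose +
    (disc (CFf H) (3 * om ^ 2) hF1 hρ).choose ≤ kk := ⟨_, le_rfl⟩
  have hz1 : 1 ≤ (zosc (3 * om) hω).choose := (zosc (3 * om) hω).choose_spec.1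
  obtain ⟨a, ha⟩ := exists_nat_ge (Cch + CFf H + 3 * om + (zosc (3 * om) hω).choose)
  obtain ⟨g0, hg⟩ : ∃ g0 : ℕ, a + 1000 * (3 * om ^ 2) + H + 10000 * (1000 * (kk + 1) ^ 3) ≤ 4 ^ g0 :=
    ⟨_, (Nat.lt_pow_self (by norm_num)).le⟩
  refine ⟨⟨om, H, kk, g0, pHat, kHat⟩, a, ⟨⟨?_, hom1, ?_, ?_, ?_, ?_, ?_⟩, hn, ?_, ?_, ?_, ?_, ?_,
    hH, ?_, hρ, ?_, ?_, ?_⟩, hp, hk⟩
  · change 1 ≤ kk; omega
  · change 1 ≤ H
    exact_mod_cast (show (1 : ℝ) ≤ H by linarith)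
  · change (a : ℝ) ≤ 4 ^ g0
    exact_mod_cast (show a ≤ 4 ^ g0 by omega)
  · change 1000 * (3 * om ^ 2) ≤ 4 ^ g0; omega
  · change H ≤ 4 ^ g0; omega
  · change 10000 * (1000 * (kk + 1) ^ 3) ≤ 4 ^ g0; omega
  · change kch ≤ kk; omega
  · change grid.choose ≤ kk; omega
  · change geo.choose ≤ kk; omega
  · change asm3.choose ≤ kk; omega
  · linarith
  · change CFf H ≤ a; linarith
  · change (disc (CFf H) (3 * om ^ 2) hF1 hρ).choose ≤ kk; omega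
  · change 3 * (om : ℝ) ≤ a; linarith
  · change (zosc (3 * om) hω).choose ≤ a; linarith

theorem qma_hard (e : ℕ) : QMAHard (yesWords e) (noWords e) := by
  rintro Y X ⟨V, hV, hY, hX⟩
  obtain ⟨c, A, h, hp, hk⟩ := exists_best
  refine ⟨fun x => (c.inst (V x).cd).code, pt_main c hp hk V hV, fun x hx => ?_, fun x hx => ?_⟩
  · obtain ⟨ψ, h1, h2⟩ := hY x hx
    exact ⟨_, rfl, (h.val _).1, (h.val _).2.1 e, h.up _ (kit_up (V x) ψ h1 h2)⟩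
  · exact ⟨_, rfl, (h.val _).1, (h.val _).2.1 e, h.low _ (kit_low (V x) (hX x hx))⟩

end

end Vale.Agent.P370Z
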