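import Vale.Agent.P370Z.Fin.One

/-! The many-body problem for the concrete parameters. -/

namespace Vale.Agent.P370Z

open MeasureTheory Finset

noncomputable section

namespace Cst

variable {c : Cst} (d : CD) {A : ℝ}

attribute [local irreducible] kt kT k1 k2 k3 kM kL km eT eN eF eX eY p CD.nT CD.nu CD.nE CD.nD
  CD.SS CD.nq nW nC lam Tq tq bq Tc E0 sig

theorem nu_pos : (1 : ℝ) ≤ d.nu := by
  have : 1 ≤ d.nu := by
    unfold CD.nu
    exact Nat.one_le_pow _ _ (by unfold CD.nu0; omega)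
  exact_mod_cast this

theorem nW_pos : (1 : ℝ) ≤ nW d.nE d.nD := by
  have : 1 ≤ nW d.nE d.nD := by unfold nW; omega
  exact_mod_cast this

theorem al_sq : al d ^ 2 = 9 / (68 * nW d.nE d.nD) := by
  have := nW_pos d
  unfold al
  rw [div_pow, Real.sq_sqrt (by positivity)]
  norm_num

theorem al_bd : 0 ≤ al d ∧ al d ≤ 1 := by
  have h0 : 0 ≤ al d := by unfold al; positivity
  have h1 := nW_pos d
  refine ⟨h0, (pow_le_one_iff_of_nonneg h0 two_ne_zero).1 ?_⟩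
  rw [al_sq, div_le_one (by positivity)]
  linarith

theorem Best.lam_bd (h : c.Best A) : 0 < (c.lam d : ℝ) ∧
    Ob (c.P d) (1 / (c.lam d : ℝ)) (1 - 3 * c.km) ∧
    (c.lam d : ℝ) ≤ 8192 * c.P d ^ (3 * c.km) := by
  have hP := h.P2 d
  have hP0 : 0 < c.P d := by linarith
  obtain ⟨-, n2, n3, -⟩ := h.num.pH d
  have n2' : (1 / 16 : ℝ) ≤ c.pH d := by
    have := (Rat.cast_le (K := ℝ)).2 n2
    push_cast at this
    exact this
  have n3' : (c.pH d : ℝ) ≤ 1 := by exact_mod_cast n3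
  have hρ1 : (1 : ℝ) ≤ c.rho := by
    have h1 := h.om
    have : 1 ≤ c.rho := by unfold rho; nlinarith
    exact_mod_cast this
  have hρ : (c.rho : ℝ) ≤ c.P d := by
    have : c.rho ≤ c.p d := by have := h.rho_le d; omega
    unfold P; exact_mod_cast this
  have e : (c.lam d : ℝ) = 512 * c.P d ^ (3 * c.km) / (c.pH d * c.rho) := by
    unfold lam Cst.m P; push_cast; rw [← pow_mul, mul_comm c.km 3]
  have hp0 : (0 : ℝ) < c.pH d := by linarith
  have hq : 0 < c.P d ^ (3 * c.km) := by positivity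
  rw [e]
  refine ⟨by positivity, Ob.of_le_zpow (by positivity) ?_, ?_⟩
  · rw [one_div_div, show (1 : ℤ) - 3 * c.km = 1 - ((3 * c.km : ℕ) : ℤ) by push_cast; rfl,
      zpow_sub₀ hP0.ne', zpow_one, zpow_natCast]
    refine div_le_div₀ hP0.le ?_ hq (by linarith)
    nlinarith only [n3', hρ, hρ1, hp0]
  · rw [div_le_iff₀ (by positivity)]
    have : 1 / 16 * 1 ≤ (c.pH d : ℝ) * c.rho := mul_le_mul n2' hρ1 zero_le_one hp0.le
    nlinarith only [this, hq]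

theorem sig_eq : (c.sig d : ℝ) = al d ^ 4 /
    (c.lam d * c.Rn d * (d.nu : ℝ) ^ 2 * (3 * d.nT + 1)) := by
  rw [show al d ^ 4 = (al d ^ 2) ^ 2 by ring, al_sq]
  unfold sig Rn P
  push_cast
  rfl

theorem Best.sig_ge (h : c.Best A) : c.P d ^ (c.ez - 7) ≤ 3 / 100 * (c.sig d : ℝ) := by
  have hP := h.P2 d
  have hP7 := h.P_big d
  have hP0 : 0 < c.P d := by linarith
  obtain ⟨l0, -, l2⟩ := h.lam_bd d
  have hS := c.SS_le_p d
  have h1 : (nW d.nE d.nD : ℝ) ≤ 2 * c.P d := by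
    have : nW d.nE d.nD ≤ 2 * c.p d := by unfold nW; unfold CD.SS at hS; omega
    unfold P; exact_mod_cast this
  have h2 : (d.nu : ℝ) ≤ c.P d := by
    have : d.nu ≤ c.p d := by unfold CD.SS at hS; omega
    unfold P; exact_mod_cast this
  have h4 : (3 * d.nT + 1 : ℝ) ≤ 3 * c.P d := by
    have : 3 * d.nT + 1 ≤ 3 * c.p d := by unfold CD.SS at hS; omega
    unfold P; exact_mod_cast this
  have h5 := nW_pos d
  have h6 := nu_pos d
  have ha : 9 / (68 * (2 * c.P d)) ≤ al d ^ 2 := by rw [al_sq]; gcongr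
  have hR : 0 < c.Rn d := by unfold Rn; positivity
  rw [sig_eq, show al d ^ 4 = (al d ^ 2) ^ 2 by ring]
  calc c.P d ^ (c.ez - 7) = 1 / (c.P d ^ (3 * c.km) * c.Rn d * c.P d ^ 5 * c.P d ^ 2) := by
        rw [show c.ez - 7 = -((3 * c.km + (c.k1 + 1) + 5 + 2 : ℕ) : ℤ) by unfold ez; omega, zpow_neg,
          zpow_natCast, pow_add, pow_add, pow_add, one_div]
        rfl
    _ ≤ 1 / (c.P d ^ (3 * c.km) * c.Rn d * c.P d ^ 5 * (10 ^ 7) ^ 2) := by gcongr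
    _ ≤ 3 / 100 * ((9 / (68 * (2 * c.P d))) ^ 2 /
        (8192 * c.P d ^ (3 * c.km) * c.Rn d * c.P d ^ 2 * (3 * c.P d))) := by
        have : 3 / 100 * ((9 / (68 * (2 * c.P d))) ^ 2 /
          (8192 * c.P d ^ (3 * c.km) * c.Rn d * c.P d ^ 2 * (3 * c.P d))) =
          1 / (c.P d ^ (3 * c.km) * c.Rn d * c.P d ^ 5 * (100 * 136 ^ 2 * 8192 / 81)) := by
          field_simp
          norm_num
        rw [this]
        gcongr
        norm_num
    _ ≤ _ := by gcongr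

theorem inst_a : (((c.inst d).a : ℚ) : ℝ) = (c.lam d : ℝ) ^ 2 *
    (d.NN * (c.E0 d + c.ω / 2) - 2 * nC d.nE d.nD * c.Tc d + 29 / 100 * c.sig d) := by
  simp only [inst, ebase, ω]
  push_cast
  rfl

theorem inst_b : (((c.inst d).b : ℚ) : ℝ) = (c.lam d : ℝ) ^ 2 *
    (d.NN * (c.E0 d + c.ω / 2) - 2 * nC d.nE d.nD * c.Tc d + 37 / 100 * c.sig d) := by
  simp only [inst, ebase, ω]
  push_cast
  rfl

theorem sizes : d.NN = 2 * Fintype.card (Core d.nE d.nD) + Fintype.card (Fin (d.nq + 1)) ∧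
    (d.NN : ℝ) ≤ c.P d ∧
    (Fintype.card (Core d.nE d.nD) + Fintype.card (Fin d.nD) : ℝ) ≤ c.P d ∧
    (Fintype.card (Fin d.nE) : ℝ) ≤ c.P d := by
  have hS := c.SS_le_p d
  rw [card_core, Fintype.card_fin, Fintype.card_fin, Fintype.card_fin]
  refine ⟨rfl, ?_, ?_, ?_⟩
  · have : d.NN ≤ c.p d := by unfold CD.SS at hS; omega
    unfold P; exact_mod_cast this
  · have : nC d.nE d.nD + d.nD ≤ c.p d := by unfold CD.SS CD.NN at hS; omega
    unfold P; exact_mod_cast this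
  · have : d.nE ≤ c.p d := by unfold CD.SS at hS; omega
    unfold P; exact_mod_cast this

theorem amp_le : (∀ e k, |al d * d.UF e k| ≤ 1) ∧ ∀ e k, |al d * d.WF e k| ≤ 1 := by
  obtain ⟨k1, k2, -, -⟩ := kit_struct d
  obtain ⟨a0, a1⟩ := al_bd d
  refine ⟨fun e k => ?_, fun e k => ?_⟩
  · rw [abs_mul, abs_of_nonneg a0]; exact mul_le_one₀ a1 (abs_nonneg _) (k1.abs_le e k)
  · rw [abs_mul, abs_of_nonneg a0]; exact mul_le_one₀ a1 (abs_nonneg _) (k2.abs_le e k)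

theorem Best.kap (h : c.Best A) {x : ℝ} (h0 : 0 ≤ x) (h1 : x ≤ 1) {y : ℝ} (hy : 1 ≤ y) :
    0 ≤ x / (y * c.Rn d) ∧ Ob (c.P d) (x / (y * c.Rn d)) (-(c.k1 + 1)) := by
  have hP := h.P2 d
  have hR : 0 < c.Rn d := by unfold Rn; positivity
  refine ⟨by positivity, ((Ob.of_le_one h0 h1).div hP (b := (c.k1 + 1 : ℕ)) ?_).mono hP (by omega)⟩
  rw [zpow_natCast]
  change c.Rn d ≤ _
  nlinarith only [hR, hy]

theorem Best.low (h : c.Best A)
    (hk : KitLow d.blkF d.UF d.WF (3 / 5 / ((3 * d.nT + 1) * (d.nu : ℝ) ^ 2))) :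
    ((((c.inst d).b : ℚ) : ℝ) : EReal) ≤ (c.inst d).groundEnergy := by
  have h3 := h.exps
  have hP := h.P2 d
  have hP7 := h.P_big d
  have hP0 : 0 < c.P d := by linarith
  obtain ⟨f, r, δ, τ, S, S', ϱ, ε, η, hob, hct, hδ, hτ, hε, hη, oδ, oτ, oε, oη⟩ := h.onebody d
  obtain ⟨s1, s2, s3, s4⟩ := sizes (c := c) d
  obtain ⟨l0, og, -⟩ := h.lam_bd d
  obtain ⟨a0, a1⟩ := al_bd d
  obtain ⟨oT, hT⟩ := h.T_bd d
  obtain ⟨ot, ht⟩ := h.t_bd d
  have hb := h.b_eq d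
  have hb0 : (0 : ℝ) < c.bq d := by rw [hb]; exact zpow_pos hP0 _
  have z1 : c.ez = -(3 * c.km + c.k1 + 1) := rfl
  have hν := nu_pos d
  have hnT : (0 : ℝ) ≤ d.nT := Nat.cast_nonneg _
  have hR : 0 < c.Rn d := by unfold Rn; positivity
  have hκ0 : 0 ≤ 2 / (3 * c.Rn d) := by positivity
  have oκ : Ob (c.P d) (2 / (3 * c.Rn d)) (-(c.k1 + 1)) := by
    have := (h.kap d (x := 2 / 3) (by norm_num) (by norm_num) (y := 1) le_rfl).2
    rwa [one_mul, div_div] at this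
  have eT : ((c.Tc d : ℚ) : ℝ) = 2 * c.Tq d - c.tq d - c.bq d := by unfold Tc; push_cast; rfl
  have hTc : (c.Tq d : ℝ) ≤ c.Tc d := by
    have o1 := (ot.add' hP (hb ▸ Ob.zp hP (c.ez + 20)) (c := c.ez + c.kT - 1) (by omega)
      (by omega)).le
    rw [eT]; linarith only [o1, hT]
  have hγ : c.P d ^ (c.ez + 19) ≤ (c.bq d : ℝ) / 40 := by
    rw [hb, show c.ez + 20 = c.ez + 19 + 1 by ring, zpow_add_one₀ hP0.ne', le_div_iff₀ (by norm_num)]
    have := zpow_pos hP0 (c.ez + 19)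
    gcongr
    linarith
  have o2 : Ob (c.P d) 2 1 := Ob.of_le (by norm_num) hP
  have o3 : Ob (c.P d) 3 1 := Ob.of_le (by norm_num) (by linarith)
  have oP := Ob.self hP
  have hb1 : al d ^ 4 * (3 / 5 / ((3 * d.nT + 1) * (d.nu : ℝ) ^ 2)) ≤ 1 := by
    refine mul_le_one₀ (pow_le_one₀ a0 a1) (by positivity) ?_
    rw [div_le_one (by positivity)]
    have : (1 : ℝ) ≤ (d.nu : ℝ) ^ 2 := one_le_pow₀ hν
    nlinarith only [this, hnT]
  rw [inst_b]
  refine bridge_low (c.inst d) _ _ l0 fun Ψ hΨ => le_trans ?_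
    (mb_low (c.inst d).N _ s1 _ (h.potOK d) f r _ _ _ δ τ hob d.blkF _ _ S S' ϱ _ _ ε η hct _
      (mf_low _ d.blkF _ _ _ ((kit_struct d).2.2.1.smul _) (hk.smul (al d))) (amp_le d).1
      (amp_le d).2 (1 / (c.lam d : ℝ)) (c.P d) (by linarith) s2 s3 s4 (by positivity) hκ0
      (by positivity) hb1 (by positivity) ?_ ?_ hδ hτ hε (oε.le_one hP (by omega)) Ψ hΨ)
  · have hn : 0 ≤ nsq Ψ := sum_nonneg fun s _ => integral_nonneg fun x => sq_nonneg _
    refine mul_le_mul_of_nonneg_right ?_ hn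
    have e1 : 1 / (c.lam d : ℝ) * (2 / (3 * c.Rn d)) *
        (al d ^ 4 * (3 / 5 / ((3 * d.nT + 1) * (d.nu : ℝ) ^ 2))) = 2 / 5 * c.sig d := by
      rw [sig_eq]; field_simp
    have e2 := ((((oP.mul hP oδ).add' hP
      ((o2.mul hP (((oP.pow hP 2).mul hP oτ).pow hP 2)).div hP (hT.trans hTc)) (c := c.ez - 9)
      (by omega) (by omega)).add' hP
      ((o2.mul hP (((og.mul hP oκ).mul hP (oP.pow hP 3)).pow hP 2)).div hP hγ) (c := c.ez - 8)
      (by omega) (by omega)).add' hP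
      ((((o3.mul hP og).mul hP oκ).mul hP (oP.pow hP 5)).mul hP oε) (c := c.ez - 7)
      (by omega) (by omega)).le
    have e3 := h.sig_ge d
    rw [e1, card_core]
    change (d.NN : ℝ) * _ - _ + _ ≤ (d.NN : ℝ) * _ - _ + _ - _
    linarith only [e2, e3]
  · have o1 := (Ob.mono hP (hb ▸ Ob.zp hP (c.ez + 20)) (b := c.ez + c.kT - 1) (by omega)).le
    linarith only [o1, hT, hTc, hb0]
  · exact (((o2.mul hP og).mul hP oκ).mono hP (by omega)).le.trans hγ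

theorem Best.up (h : c.Best A)
    (hk : KitUp d.blkF d.UF d.WF (9 / 25 / ((3 * d.nT + 1) * (d.nu : ℝ) ^ 2))) :
    (c.inst d).groundEnergy ≤ ((((c.inst d).a : ℚ) : ℝ) : EReal) := by
  have h3 := h.exps
  have hP := h.P2 d
  have hP7 := h.P_big d
  have hP0 : 0 < c.P d := by linarith
  obtain ⟨f, r, δ, τ, S, S', ϱ, ε, η, hob, hct, hδ, hτ, hε, hη, oδ, oτ, oε, oη⟩ := h.onebody d
  obtain ⟨s1, s2, s3, s4⟩ := sizes (c := c) d
  obtain ⟨l0, og, -⟩ := h.lam_bd d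
  have z1 : c.ez = -(3 * c.km + c.k1 + 1) := rfl
  have hν := nu_pos d
  have hnT : (0 : ℝ) ≤ d.nT := Nat.cast_nonneg _
  have hR : 0 < c.Rn d := by unfold Rn; positivity
  have hκ0 : 0 ≤ 5 / (7 * c.Rn d) := by positivity
  have oκ : Ob (c.P d) (5 / (7 * c.Rn d)) (-(c.k1 + 1)) := by
    have := (h.kap d (x := 5 / 7) (by norm_num) (by norm_num) (y := 1) le_rfl).2
    rwa [one_mul, div_div] at this
  have o3 : Ob (c.P d) 3 1 := Ob.of_le (by norm_num) (by linarith)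
  have oP := Ob.self hP
  obtain ⟨cc, hcc⟩ := mf_up (C := Core d.nE d.nD) (c.inst d).N s1 d.blkF _ _ _
    ((kit_struct d).2.2.1.smul _) (hk.smul (al d))
  obtain ⟨Ψ, h1, h2, h4⟩ := mb_up (c.inst d).N _ (h.potOK d) f r _ _ _ δ τ hob d.blkF _ _ S S' ϱ
    _ _ ε η hct _ cc hcc (amp_le d).1 (amp_le d).2 (1 / (c.lam d : ℝ)) (c.P d) (by linarith) s2 s3
    s4 (by positivity) hκ0 hδ hε (oε.le_one hP (by omega)) hη
  rw [inst_a]
  refine bridge_up (c.inst d) _ _ l0 ⟨Ψ, h1, h2, h4.trans (mul_le_mul_of_nonneg_right ?_ h2.le)⟩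
  have e1 : 1 / (c.lam d : ℝ) * (5 / (7 * c.Rn d)) *
      (al d ^ 4 * (9 / 25 / ((3 * d.nT + 1) * (d.nu : ℝ) ^ 2))) = 9 / 35 * c.sig d := by
    rw [sig_eq]; field_simp; ring
  have e2 := ((((oP.pow hP 2).mul hP oδ).add' hP
    ((((o3.mul hP og).mul hP oκ).mul hP (oP.pow hP 5)).mul hP oε) (c := c.ez - 9)
    (by omega) (by omega)).add' hP
    ((og.mul hP (oP.pow hP 4)).mul hP oη) (c := c.ez - 7) (by omega) (by omega)).le
  have e3 := h.sig_ge d
  have e4 : 0 < c.P d ^ (c.ez - 7) := zpow_pos hP0 _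
  rw [e1, card_core]
  change (d.NN : ℝ) * _ - _ + _ + _ ≤ (d.NN : ℝ) * _ - _ + _
  linarith only [e2, e3, e4]

end Cst

end

end Vale.Agent.P370Z
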