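import Vale.Agent.P370Z.Fin.Stage

/-! The one-body problem for the concrete parameters. -/

namespace Vale.Agent.P370Z

open MeasureTheory Finset

noncomputable section

namespace Cst

variable {c : Cst} (d : CD) {A : ℝ}

attribute [local irreducible] kt kT k1 k2 k3 kM kL km eT eN eF eX eY p

theorem Best.potOK (h : c.Best A) : PotOK (scPot (c.inst d) (c.lam d)) := by
  obtain ⟨η1, η2, hD, -⟩ := h.discm d
  obtain ⟨-, -, p3, B, p4⟩ := h.pot_core d h.num h.C_F (h.Ff_ok d).1.cont_bd.2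
  rw [h.scPot_eq d]
  exact hD.pot.add_bdd ((p3.add (h.Ff_ok d).1.cont_bd.1.measurable).const_mul _) p4

/-- the three-dimensional band -/
theorem Best.band3 (h : c.Best A) {e : ℕ → ℝ → ℝ} {sb : ℕ → ℝ} {Γ τ δm εb : ℝ}
    (hb : Band1 (KK d) (c.chain d).len (c.chain d).u0 e (fun k => levD 0 ((c.chain d).bump k))
      (lapM (KK d) (c.chain d).hop) (fun k => (c.chain d).pr k) (fun k => (c.chain d).pl (k + 1))
      sb Cch Γ τ δm τ εb τ)
    (hΓ1 : (c.P d ^ c.kM)⁻¹ ≤ Γ) (hΓ2 : Γ ≤ (c.P d)⁻¹) (hτ : 0 ≤ τ) (hδm : 0 ≤ δm) (hεb : 0 ≤ εb)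
    (oτ : Ob (c.P d) τ (-2 * c.km)) (oδm : Ob (c.P d) δm (c.ez - 18))
    (oεb : Ob (c.P d) εb (c.eX - c.km))
    {e3 : ℝ → ℝ} {Γ3 τ3 δ3 : ℝ} (hz : ZBand c.ω (c.z0 d) (c.L1 d) e3 (c.P d) Γ3 τ3 δ3)
    (hΓ3 : (c.P d)⁻¹ ≤ Γ3) (hτ3 : 0 ≤ τ3) (hδ3 : 0 ≤ δ3) (oτ3 : Ob (c.P d) τ3 (1 - 8 * c.km))
    (oδ3 : Ob (c.P d) δ3 (2 - 2 * c.kL)) :
    ∃ δ : ℝ, Band3 (scPot (c.inst d) (c.lam d)) (prodOrb (K := KK d) e e3)
      (gridM (KK d) (lapM (KK d) (c.chain d).hop) (c.wr d)) (c.E0 d + c.ω / 2) (Γ / 4) δ ∧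
      0 ≤ δ ∧ Ob (c.P d) δ (c.ez - 15) := by
  have h3 := h.exps
  have hP := h.P2 d
  have hP7 := h.P_big d
  have hP0 : 0 < c.P d := by linarith
  obtain ⟨η1, η2, hD, hη1, hη2, oη1, oη2⟩ := h.discm d
  have hF := (h.Ff_ok d).1.cont_bd
  obtain ⟨p1, p2, p3, p4⟩ := h.pot_core d h.num h.C_F hF.2
  have hw := (h.gridm d).1
  obtain ⟨ow, hw1⟩ := h.wr_le d
  have hw0 : (0 : ℝ) ≤ 8 * c.Tq d := (abs_nonneg _).trans (hw 0 0)
  have hCP : Cch ≤ c.P d := h.C_ch.trans (h.A_le d)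
  have hFP : CFf c.H ≤ c.P d := h.C_F.trans (h.A_le d)
  have hω1 : 1 ≤ c.ω := one_le_omega h.om
  have hω3 : 3 ≤ c.ω := by
    have : (1 : ℝ) ≤ c.om := by exact_mod_cast h.om
    unfold ω; linarith
  have hωP : c.ω ≤ c.P d := h.om_le.trans (h.A_le d)
  have hPM : c.P d ≤ c.P d ^ c.kM := le_self_pow₀ (by linarith) (by omega)
  have hP2M : c.P d ^ 2 ≤ c.P d ^ c.kM := pow_le_pow_right₀ (by linarith) (by omega)
  have hl := h.len_le' d
  have hL0 : c.P d ^ (c.k1 + c.k3 + 2) ≤ c.P d ^ (c.kL + 1) :=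
    pow_le_pow_right₀ (by linarith) (by omega)
  have hz0 := h.z0_le' d
  have hzL : c.P d ^ 2 ≤ c.L1 d := by
    rw [L1_eq]; exact pow_le_pow_right₀ (by linarith) (by omega)
  have hL1 : (1 : ℝ) ≤ c.L1 d := le_trans (one_le_pow₀ (by linarith)) hzL
  have hLz : (c.Lz d : ℝ) = 2 * c.L1 d + 2 := by unfold Lz; push_cast; rfl
  have oerr : Ob (c.P d) (c.err d) (3 * (c.kL : ℤ) + 12 - 4 * c.km) := Ob.zp hP _
  have herr : 0 ≤ c.err d := zpow_nonneg hP0.le _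
  have herr1 : c.err d ≤ 1 := oerr.le_one hP (by omega)
  have hH : 2 * Cch + 8 * (c.Tq d : ℝ) ≤ c.H := by linarith [h.H_ge]
  have hH1 : (1 : ℝ) ≤ c.H := by exact_mod_cast h.H
  have ff := F0_facts (c.chain d) (c.wr d) c.H (2 * c.L1 d) hw hb.u_bd hH hb.b_nonneg hb.b_sum
  have hmin0 : ∀ z : ℝ, 0 ≤ min (z ^ 2) ((c.Lz d : ℝ) ^ 2) := fun z =>
    le_min (sq_nonneg _) (sq_nonneg _)
  have oM : Ob (c.P d) ((c.P d ^ c.kM) ^ asm3.choose) c.eX := by
    have := (Ob.npow hP c.kM).pow_le hP (by omega) h.k_asm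
    exact this.mono hP (by unfold eX; push_cast; rw [mul_comm])
  have hB := asm3.choose_spec (KK d) _ _ _ _ _ _ _ _ _ _ _ _ _ _ _ (hb.monoC hCP) _ _ _ _ _ _ _ hz
    (c.wr d) (8 * c.Tq d) (c.V0 d) (c.DD d) (c.u3 d) (c.E0 d) c.H (c.err d) η1 η2
    (c.P d ^ (c.k1 + c.k3 + 2)) (c.P d ^ c.kM) (hP.trans hPM) ((KK_le d).trans hPM) hPM
    (by linarith) (hωP.trans hPM) (Nat.cast_nonneg _) hl
    (hz0.trans (pow_le_pow_right₀ (by linarith) (by omega)))
    (pow_le_pow_right₀ (by linarith) (by omega)) (by rwa [one_div]) (hΓ2.trans hΓ3)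
    (hΓ2.trans (inv_le_one_of_one_le₀ (by linarith))) hH1 hw hτ hδm hτ hεb
    (oεb.le_one hP (by omega)) hτ3 (oτ3.le_one hP (by omega)) hδ3 herr hη1 hη2
    ((p3.add hF.1.measurable).const_mul _) p4
    (by unfold u3; fun_prop)
    ⟨c.ω ^ 2 * (c.Lz d : ℝ) ^ 2 / 2 + c.ω / 2, fun z => by
      have h1 := hmin0 z
      have h2 : c.ω ^ 2 * min (z ^ 2) ((c.Lz d : ℝ) ^ 2) ≤ c.ω ^ 2 * (c.Lz d : ℝ) ^ 2 :=
        mul_le_mul_of_nonneg_left (min_le_right _ _) (sq_nonneg _)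
      have h4 : 0 ≤ c.ω ^ 2 * min (z ^ 2) ((c.Lz d : ℝ) ^ 2) := mul_nonneg (sq_nonneg _) h1
      unfold u3
      rw [abs_le]
      constructor <;> linarith only [h2, h4, hω1]⟩
    (fun z hz => by
      unfold u3
      rw [min_eq_left (sq_le_sq' (by linarith [(abs_le.1 hz).1]) (by linarith [(abs_le.1 hz).2]))])
    (fun z hz => by
      have h1 : 1 ≤ min (z ^ 2) ((c.Lz d : ℝ) ^ 2) := by
        refine le_min ?_ (one_le_pow₀ (by linarith))
        rw [← sq_abs]; exact one_le_pow₀ (by linarith)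
      have h2 : c.ω ^ 2 * 1 ≤ c.ω ^ 2 * min (z ^ 2) ((c.Lz d : ℝ) ^ 2) :=
        mul_le_mul_of_nonneg_left h1 (sq_nonneg _)
      unfold u3
      nlinarith only [h2, hω3])
    (fun x a1 a2 a3 a4 a5 => by
      have e1 := (ff (x 0) (x 1) (x 2)).2 a1 a2 a3 a4 (by push_cast; linarith)
      have a6 : |x 2| ≤ c.Lz d := by linarith
      have b1 := p1 x
      have b2 := p2 x (by rw [abs_of_nonneg (by linarith)]; linarith)
        (by rw [abs_of_nonneg (by linarith)]; linarith) a6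
      rw [min_eq_left (sq_le_sq' (abs_le.1 a6).1 (abs_le.1 a6).2)] at b1
      change c.Ff d x = _ at e1
      rw [e1, show (c.chain d).K = KK d from rfl] at b1 b2
      rw [abs_le]
      constructor
      · linarith only [b1]
      · linarith only [b2])
    (fun x _ _ => by
      have e1 := (ff (x 0) (x 1) (x 2)).1
      change _ ≤ c.Ff d x at e1
      have b1 := p1 x
      unfold u3
      linarith only [e1, b1])
    (fun x hx => by
      have e1 : c.Ff d x = 0 := by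
        by_contra h'
        have := F0_supp _ _ _ _ _ _ _ h'
        exact hx ⟨this.1, this.2.1⟩
      have b1 := p1 x
      unfold u3
      linarith only [e1, b1])
    (fun x => by
      have b1 := p1 x
      have b2 := (abs_le.1 (hF.2 x)).1
      have h4 : 0 ≤ c.ω ^ 2 * min (x 2 ^ 2) ((c.Lz d : ℝ) ^ 2) :=
        mul_nonneg (sq_nonneg _) (hmin0 _)
      linarith only [b1, b2, h4, herr1, hH1, hFP, hPM])
    hD
    ((oM.mul hP ((((oτ.add' hP oδ3 (c := 3 - 2 * c.kL) (by omega) (by omega)).add' hP ow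
      (c := 4 - 2 * c.kL) (by omega) (by unfold ez; omega)).add' hP oerr (c := 5 - 2 * c.kL)
      (by omega) (by omega)).add' hP oη2 (c := 6 - 2 * c.kL) (by omega) (by omega))).le_one hP
      (by omega))
  rw [h.scPot_eq d]
  refine ⟨_, hB, by positivity, ?_⟩
  have o4 : Ob (c.P d) 4 1 := Ob.of_le (by norm_num) (by linarith)
  have oK : Ob (c.P d) ((KK d : ℝ) ^ 2) 1 := Ob.of_le (by positivity) (KK2_le d)
  refine Ob.add' hP ((o4.mul hP oK).mul hP oδm) (oM.mul hP (a := c.eX) (b := c.ez - 20 - c.eX) ?_)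
    (by omega) (by omega)
  have z1 : c.ez = -(3 * c.km + c.k1 + 1) := rfl
  exact (((((((ow.mul hP oεb).add' hP (oτ.pow hP 2) (c := c.ez - 30 - c.eX) (by omega)
    (by omega)).add' hP oτ3 (c := c.ez - 29 - c.eX) (by omega) (by omega)).add' hP (ow.pow hP 2)
    (c := c.ez - 28 - c.eX) (by omega) (by omega)).add' hP (oη2.pow hP 2)
    (c := c.ez - 27 - c.eX) (by omega) (by omega)).add' hP oη1
    (c := c.ez - 26 - c.eX) (by omega) (by omega)).add' hP oerr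
    (c := c.ez - 20 - c.eX) (by omega) (by omega))

/-- the distance of the contacts -/
def Rn (c : Cst) (d : CD) : ℝ := c.P d ^ (c.k1 + 1)

/-- orbitals, their energies and their contact interaction -/
theorem Best.onebody (h : c.Best A) :
    ∃ (f : Core d.nE d.nD ⊕ Fin d.nD → P3 → ℝ) (r : Core d.nE d.nD → P3 → ℝ) (δ τ : ℝ)
      (S S' : Fin d.nE → Set P3) (ϱ : P3 → P3 → ℝ) (ε η : ℝ),
      OB (scPot (c.inst d) (c.lam d)) f r (c.E0 d + c.ω / 2) (c.Tc d) (c.bq d / 40) δ τ ∧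
      CT f d.blkF (fun e k => al d * d.UF e k) (fun e k => al d * d.WF e k) S S' ϱ
        (2 / (3 * c.Rn d)) (5 / (7 * c.Rn d)) ε η ∧
      0 ≤ δ ∧ 0 ≤ τ ∧ 0 ≤ ε ∧ 0 ≤ η ∧ Ob (c.P d) δ (c.ez - 12) ∧
      Ob (c.P d) τ (c.ez + c.kt + c.kk) ∧ Ob (c.P d) ε (c.kk - c.km) ∧
      Ob (c.P d) η (-(4 * c.kk + 177)) := by
  have h3 := h.exps
  have hP := h.P2 d
  have hP7 := h.P_big d
  have hP0 : 0 < c.P d := by linarith
  obtain ⟨e, sb, Γ, τ, δm, εb, hb, hΓ1, hΓ2, hτ, hδm, hεb, oτ, oδm, oεb, hsb⟩ := h.band1 d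
  obtain ⟨e3, Γ3, τ3, δ3, hz, hΓ3, hτ3, hδ3, oτ3, oδ3⟩ := h.zband d
  obtain ⟨δ, hB, hδ, oδ⟩ := h.band3 d hb hΓ1 hΓ2 hτ hδm hεb oτ oδm oεb hz hΓ3 hτ3 hδ3 oτ3 oδ3
  obtain ⟨-, O, Rc, δ', τ', hG, hgeo, hδ', hτ', oδ', oτ'⟩ := h.gridm d
  have hb0 : (0 : ℝ) < c.bq d := by rw [h.b_eq d]; exact zpow_pos hP0 _
  have hbΓ : (c.bq d : ℝ) ≤ Γ := by
    refine le_trans ?_ hΓ1
    rw [h.b_eq d, ← zpow_natCast, ← zpow_neg]
    exact zpow_le_zpow_right₀ (by linarith) (by unfold ez; omega)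
  have hob := oba _ (h.potOK d) _ _ _ _ _ hB O Rc _ _ _ _ hG (by linarith) (by linarith) hδ hδ'
  have hCP : Cch ≤ c.P d := h.C_ch.trans (h.A_le d)
  have hRn : c.Rn d = ((c.p d ^ (c.k1 + 1) : ℕ) : ℝ) := by unfold Rn P; push_cast; rfl
  have hnm : ∀ e : Fin d.nE, ¬ isMain d.nE d.nD (d.nE + d.nD + e) := fun e => by
    unfold isMain; omega
  obtain ⟨S, S', ϱ, hct⟩ := geo.choose_spec (KK d) _ _ _ _ _ _ _ _ _ _ _ _ _ _ _ (hb.monoC hCP)
    _ _ _ _ _ _ _ hz O _ _ _ _ _ hgeo (c.Rn d) (c.P d ^ c.k2) (c.P d ^ (2 * (5 * c.kk + 179)))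
    (c.P d) hP (KK_le d) le_rfl (by unfold Rn; positivity) (by positivity)
    (one_le_pow₀ (by linarith)) hτ (oτ.le_one hP (by omega)) (Nat.cast_nonneg _)
    (fun k _ => by exact_mod_cast (c.chain d).pr_le_pl' k)
    (fun k k' hk _ => by
      have h1 : (c.chain d).pl (k + 1) ≤ (c.chain d).pl k' := (c.chain d).pl_mono' hk
      have h2 : (c.chain d).pl k' ≤ (c.chain d).pr k' := Nat.le_add_right _ _
      exact_mod_cast h1.trans h2)
    (fun k k' hk hk' hne => by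
      have := h.far d k k' hk hk' hne
      unfold P; exact_mod_cast this)
    (fun e => by
      have h1 := h.near d _ (hgeo.pos_lt e)
      have h2 := h.two_rooms d (4 * (d.nE + d.nD + e)) (by omega)
        (by rw [show 4 * (d.nE + d.nD + e) / 4 = d.nE + d.nD + e by omega]; exact hnm e)
      have h4 := h.two_rooms d (4 * (d.nE + d.nD + e) + 2) (by omega)
        (by rw [show (4 * (d.nE + d.nD + e) + 2) / 4 = d.nE + d.nD + e by omega]; exact hnm e)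
      have h2' := (Nat.cast_le (α := ℝ)).2 h2
      have h4' := (Nat.cast_le (α := ℝ)).2 h4
      rw [Nat.cast_add, Nat.cast_mul, Nat.cast_mul, ← hRn] at h2' h4'
      refine ⟨?_, ?_, ?_⟩
      · rw [hRn]; exact_mod_cast h1
      · change (((c.chain d).pl (4 * (d.nE + d.nD + e) + 2) : ℕ) : ℝ) ≤ _
        push_cast at h2' ⊢
        linarith only [h2']
      · change (((c.chain d).pl (4 * (d.nE + d.nD + e) + 2 + 2) : ℕ) : ℝ) ≤ _
        push_cast at h4' ⊢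
        linarith only [h4'])
    (by
      have h1 := h.z0_le' d
      have h2 : c.P d ^ 3 ≤ c.Rn d := pow_le_pow_right₀ (by linarith) (by omega)
      have h4 : 200 * c.P d ^ 2 ≤ c.P d ^ 3 := by
        rw [pow_succ' (c.P d) 2]; gcongr; linarith
      linarith only [h1, h2, h4])
    (fun k _ hk => hsb k hk)
  have oS : Ob (c.P d) (c.P d ^ geo.choose) c.kk :=
    (Ob.npow hP _).mono hP (by exact_mod_cast h.k_geo)
  have osq : Ob (c.P d) (√τ) (-c.km) := Ob.sqrt hP (oτ.mono hP (by omega))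
  refine ⟨_, _, _, _, S, S', ϱ, _, _, hob, hct, by positivity, hτ', by positivity, by positivity,
    ?_, oτ', (oS.mul hP osq).mono hP (by omega), ?_⟩
  · have oK : Ob (c.P d) ((Fintype.card (Fin (KK d) × Fin (KK d)) : ℝ) + 1) 2 := by
      refine Ob.add' hP (a := 1) (b := 0) (Ob.of_le (Nat.cast_nonneg _) ?_)
        (Ob.of_le_one zero_le_one le_rfl) (by omega) (by omega)
      rw [Fintype.card_prod, Fintype.card_fin, Nat.cast_mul, ← sq]
      exact KK2_le d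
    exact oδ'.add' hP (oK.mul hP oδ) (by omega) (by omega)
  · have o1 : Ob (c.P d) (1 / c.P d ^ c.k2) (-c.k2) := by
      rw [one_div]; exact Ob.inv hP (by rw [zpow_natCast])
    have o2 : Ob (c.P d) (1 / √(c.P d ^ (2 * (5 * c.kk + 179)))) (-(5 * c.kk + 179 : ℕ)) := by
      rw [one_div, mul_comm, pow_mul, Real.sqrt_sq (by positivity)]
      exact Ob.inv hP (by rw [zpow_natCast])
    exact (oS.mul hP ((o1.add' hP o2 (c := -(5 * c.kk + 178)) (by omega) (by omega)).add' hP osq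
      (c := -(5 * c.kk + 177)) (by omega) (by omega))).mono hP (by omega)

end Cst

end

end Vale.Agent.P370Z
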