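import Vale.Agent.P370Z.Fin.Tools

/-! The parameters of the reduction: sizes, the chain, the geometry. -/

namespace Vale.Agent.P370Z

open MeasureTheory Finset

noncomputable section

namespace ChD

variable (c : ChD)

theorem pl_succ' (j : ℕ) : c.pl (j + 1) =
    c.pl j + (c.R j + (c.s j - c.ρ j) + c.a * 4 ^ c.ρ j + (c.s (j + 1) - c.ρ j)) := by
  simp only [pl, sum_range_succ]; ring

theorem pl_mono' : Monotone c.pl :=
  monotone_nat_of_le_succ fun j => by rw [pl_succ']; omega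

theorem pr_le_pl' (j : ℕ) : c.pr j ≤ c.pl (j + 1) := by
  rw [pl_succ', pr]; omega

theorem pr_mono' : Monotone c.pr :=
  monotone_nat_of_le_succ fun j => (c.pr_le_pl' j).trans (by unfold pr; omega)

end ChD

namespace Cst

/-- The constants are large enough. -/
structure Good (c : Cst) (A : ℝ) : Prop where
  kk : 1 ≤ c.kk
  om : 1 ≤ c.om
  H : 1 ≤ c.H
  big : A ≤ 4 ^ c.g0
  rho : 1000 * c.rho ≤ 4 ^ c.g0
  Hle : c.H ≤ 4 ^ c.g0
  km : 10000 * c.km ≤ 4 ^ c.g0

variable (c : Cst) (d : CD)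

/-- the base as a real number -/
def P : ℝ := c.p d

theorem p_pos : 0 < c.p d := by unfold p; positivity

theorem g0_le_p : 4 ^ c.g0 ≤ c.p d :=
  Nat.pow_le_pow_right (by norm_num) (by unfold gp; omega)

theorem SS_le_p : d.SS ≤ c.p d := by
  have h1 : d.SS < 2 ^ Nat.size d.SS := Nat.lt_size_self _
  have h2 : 2 ^ Nat.size d.SS ≤ 4 ^ Nat.size d.SS := Nat.pow_le_pow_left (by norm_num) _
  have h3 : 4 ^ Nat.size d.SS ≤ c.p d := Nat.pow_le_pow_right (by norm_num) (by unfold gp; omega)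
  omega

theorem gp_le_p : c.gp d ≤ c.p d := (Nat.lt_pow_self (by norm_num)).le

theorem gp_pos : 1 ≤ c.gp d := by
  have : 0 < Nat.size d.SS := Nat.size_pos.2 (by unfold CD.SS; omega)
  unfold gp; omega

theorem four_pow (k : ℕ) : 4 ^ (c.gp d * k) = c.p d ^ k := by rw [pow_mul]; rfl

theorem four_pow_real (k : ℕ) : (4 : ℝ) ^ (c.gp d * k) = c.P d ^ k := by
  unfold P; exact_mod_cast c.four_pow d k

theorem nK_pos : 12 ≤ nK d.nE d.nD := by
  unfold nK nI CD.nD CD.dC CD.nq; omega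

theorem K2_le : nK d.nE d.nD ^ 2 ≤ c.p d := le_trans (by unfold CD.SS; omega) (c.SS_le_p d)

theorem K_le : nK d.nE d.nD ≤ c.p d :=
  le_trans (Nat.le_self_pow (by norm_num) _) (c.K2_le d)

/-- the exponent `κ * kM` -/
def eX : ℕ := c.kk * c.kM

/-- the exponent `κ * (kL + 2)` -/
def eY : ℕ := c.kk * (c.kL + 2)

variable {c} {A : ℝ}

theorem Good.exps (h : c.Good A) : c.kt = c.kk + 60 ∧ c.kT = 4 * c.kk + 140 ∧
    c.k1 = 4 * c.kk + 160 ∧ c.k2 = 5 * c.kk + 180 ∧ c.k3 = 6 * c.kk + 200 ∧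
    c.kM = 20 * c.kk + 730 ∧ c.kL = c.eX + 1 ∧ c.kM ≤ c.eX ∧ c.eX + 3 ≤ c.eY ∧ 1 ≤ c.kk ∧
    2 * c.eY + 4 * c.eX + 100 * c.kk + 2000 ≤ c.km ∧
    c.eT + c.k1 + c.kT = 3 * c.km + 1 ∧ c.eN + c.k1 + c.kt = 3 * c.km ∧
    c.eF + c.kt + c.k2 = 3 * c.km + 1 := by
  have hk := h.kk
  have hM : c.kM = 20 * c.kk + 730 := by unfold kM k1 k3; ring
  have h1 : 2 * c.eY + 4 * c.eX + 100 * c.kk + 2000 ≤ c.km := by
    unfold eY kL eX Cst.km
    rw [hM]
    obtain ⟨j, hj⟩ := Nat.exists_eq_add_of_le hk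
    rw [hj]
    ring_nf
    omega
  have h2 : c.kM ≤ c.eX := by unfold eX; exact Nat.le_mul_of_pos_left _ hk
  have h3 : c.eX + 3 ≤ c.eY := by
    have : c.eX + 3 = c.kL + 2 := rfl
    rw [this]; unfold eY; exact Nat.le_mul_of_pos_left _ hk
  refine ⟨rfl, rfl, rfl, rfl, rfl, hM, rfl, h2, h3, hk, h1, ?_, ?_, ?_⟩
  · unfold eT k1 kT; omega
  · unfold eN k1 kt; omega
  · unfold eF k2 kt; omega

theorem Good.p_big (h : c.Good A) : 10 ^ 7 ≤ c.p d := by
  have h1 := h.km
  have h2 := c.g0_le_p d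
  have h3 := h.exps
  omega

theorem Good.km_le (h : c.Good A) : 10000 * c.km ≤ c.p d := h.km.trans (c.g0_le_p d)

theorem Good.rho_le (h : c.Good A) : 1000 * c.rho ≤ c.p d := h.rho.trans (c.g0_le_p d)

theorem Good.P_big (h : c.Good A) : (10 : ℝ) ^ 7 ≤ c.P d := by
  unfold P; exact_mod_cast h.p_big d

theorem Good.P2 (h : c.Good A) : (2 : ℝ) ≤ c.P d := le_trans (by norm_num) (h.P_big d)

theorem Good.A_le (h : c.Good A) : A ≤ c.P d :=
  h.big.trans (by unfold P; exact_mod_cast c.g0_le_p d)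

theorem Good.pow_le (_ : c.Good A) {i j : ℕ} (hij : i ≤ j) : c.p d ^ i ≤ c.p d ^ j :=
  Nat.pow_le_pow_right (c.p_pos d) hij

theorem Good.s_le (h : c.Good A) (j : ℕ) : (c.chain d).s j ≤ c.p d ^ 2 := by
  have h3 := h.exps
  have h4 : (c.chain d).s j ≤ c.gp d * (6 * c.km) := by
    simp only [chain]
    split_ifs <;> apply Nat.mul_le_mul_left <;> omega
  have h5 := h.km_le d
  have h6 := c.gp_le_p d
  calc (c.chain d).s j ≤ c.gp d * (6 * c.km) := h4
    _ ≤ c.p d * c.p d := Nat.mul_le_mul h6 (by omega)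
    _ = c.p d ^ 2 := by ring

theorem Good.s_ge (h : c.Good A) (j : ℕ) : c.gp d * c.eT ≤ (c.chain d).s j := by
  have h3 := h.exps
  simp only [chain]
  split_ifs <;> apply Nat.mul_le_mul_left <;> omega

theorem rho_le' (k : ℕ) : (c.chain d).ρ k ≤ c.gp d * c.k3 := by
  simp only [chain]
  split_ifs <;> omega

theorem Good.R_le (h : c.Good A) (j : ℕ) : (c.chain d).R j ≤ c.p d ^ c.k2 := by
  have h3 := h.exps
  simp only [chain]
  split_ifs <;> apply h.pow_le d <;> omega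

theorem Good.R_ge (h : c.Good A) (j : ℕ) : c.p d ^ c.k1 ≤ (c.chain d).R j := by
  have h3 := h.exps
  simp only [chain]
  split_ifs <;> apply h.pow_le d <;> omega

variable (c) in
/-- the small parameter of the chain -/
def th : ℝ := c.P d ^ ((c.k3 : ℤ) - c.eT)

theorem Good.chain_OK (h : c.Good A) : (c.chain d).OK (c.p d ^ c.k1) (c.th d) := by
  have h3 := h.exps
  have hP := h.P2 d
  have hg := c.gp_pos d
  have hs0 : (1 / 2 : ℝ) ^ (c.gp d * (6 * c.km)) ≤ c.th d := by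
    have : (1 / 2 : ℝ) ^ (c.gp d * (6 * c.km)) = c.P d ^ (-(3 * c.km : ℕ) : ℤ) := by
      rw [zpow_neg, zpow_natCast, ← four_pow_real, ← inv_pow,
        show c.gp d * (6 * c.km) = 2 * (c.gp d * (3 * c.km)) by ring, pow_mul]
      norm_num
    rw [this]
    exact zpow_le_zpow_right₀ (by linarith) (by omega)
  refine ⟨by have := nK_pos d; simp only [chain]; omega, ?_, le_rfl, fun j _ => h.R_ge d j,
    fun k _ => ?_, fun j _ k _ => ?_, ?_, ?_⟩
  · have := h.p_big d
    calc 8 ≤ c.p d ^ 1 := by rw [pow_one]; omega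
      _ ≤ _ := h.pow_le d (by omega)
  · have h1 := rho_le' (c := c) d k
    have h2 : c.gp d * c.k3 < c.gp d * c.eT := Nat.mul_lt_mul_of_pos_left (by omega) hg
    exact ⟨by have := h.s_ge d k; omega, by have := h.s_ge d (k + 1); omega⟩
  · have h1 : (4 : ℝ) ^ (c.chain d).ρ k ≤ c.P d ^ c.k3 := by
      rw [← four_pow_real]; exact pow_le_pow_right₀ (by norm_num) (rho_le' d k)
    have h2 : (1 / 4 : ℝ) ^ (c.chain d).s j ≤ (c.P d ^ c.eT)⁻¹ := by
      rw [← four_pow_real, ← inv_pow, ← one_div]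
      exact pow_le_pow_of_le_one (by norm_num) (by norm_num) (h.s_ge d j)
    unfold th
    rw [zpow_sub₀ (by linarith), zpow_natCast, zpow_natCast, div_eq_mul_inv]
    exact mul_le_mul h1 h2 (by positivity) (by positivity)
  · simpa only [chain, true_or, if_true] using hs0
  · simpa only [chain, or_true, if_true] using hs0

theorem Good.len_le (h : c.Good A) : (c.chain d).len ≤ c.p d ^ (c.k1 + c.k3 + 2) := by
  have h3 := h.exps
  have hp := h.p_big d
  set q := c.p d ^ (c.k1 + c.k3) with hq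
  have hR : ∀ j, (c.chain d).R j ≤ q := fun j => (h.R_le d j).trans (h.pow_le d (by omega))
  have hs : ∀ j, (c.chain d).s j ≤ q := fun j => (h.s_le d j).trans (h.pow_le d (by omega))
  have ha : ∀ j, (c.chain d).a * 4 ^ (c.chain d).ρ j ≤ q := fun j => by
    rw [hq, pow_add, ← c.four_pow d c.k3]
    exact Nat.mul_le_mul le_rfl (Nat.pow_le_pow_right (by norm_num) (rho_le' d j))
  have hpl : ∀ j, (c.chain d).pl j ≤ 2 + j * (4 * q) := by
    intro j
    induction j with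
    | zero => simp [ChD.pl]
    | succ j ih =>
      rw [ChD.pl_succ']
      have := hR j; have := hs j; have := hs (j + 1); have := ha j
      rw [add_mul]; omega
  have hK : (c.chain d).K ≤ c.p d := c.K_le d
  have h1 := hpl (c.chain d).K
  have h2 : (c.chain d).K * (4 * q) ≤ c.p d * (4 * q) := Nat.mul_le_mul_right _ hK
  have hq1 : 1 ≤ q := Nat.one_le_pow _ _ (c.p_pos d)
  have h4 := hR (c.chain d).K
  have h5 : c.p d ^ (c.k1 + c.k3 + 2) = c.p d * (c.p d * q) := by rw [hq]; ring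
  have h6 : c.p d * (10 * q) ≤ c.p d * (c.p d * q) :=
    Nat.mul_le_mul_left _ (Nat.mul_le_mul_right _ (by omega))
  have h7 : q ≤ c.p d * q := Nat.le_mul_of_pos_left _ (c.p_pos d)
  have h8 : c.p d * (10 * q) = 10 * (c.p d * q) := by ring
  have h9 : c.p d * (4 * q) = 4 * (c.p d * q) := by ring
  unfold ChD.len ChD.pr
  omega

theorem Good.len_ge (h : c.Good A) : c.p d ≤ (c.chain d).len := by
  have h3 := h.exps
  have h1 := h.R_ge d (c.chain d).K
  have h2 : c.p d ^ 1 ≤ c.p d ^ c.k1 := h.pow_le d (by omega)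
  rw [pow_one] at h2
  unfold ChD.len ChD.pr
  omega

theorem Good.hop_eq (h : c.Good A) (j : ℕ) (h0 : 0 < j) (hj : j < nK d.nE d.nD) :
    (c.chain d).hop j = hopG (c.Tq d : ℝ) (c.tq d : ℝ) j := by
  have h3 := h.exps
  have hP := h.P2 d
  have e4 : ∀ k, (1 / 4 : ℝ) ^ (c.gp d * k) = 1 / c.P d ^ k := fun k => by
    rw [← four_pow_real, one_div_pow]
  have hP0 : c.P d ≠ 0 := by linarith
  have hc : ((c.p d : ℕ) : ℝ) = c.P d := rfl
  unfold ChD.hop hopG Tq tq
  simp only [chain]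
  rw [if_neg (by omega)]
  by_cases h1 : j % 2 = 1
  · rw [if_pos h1, if_pos (by omega), if_pos h1, e4]
    push_cast
    rw [hc]
    field_simp
    ring
  · rw [if_neg h1, if_neg h1, if_neg (show ¬ (j = 0 ∨ j = nK d.nE d.nD ∨ j % 2 = 1) by omega)]
    by_cases h2 : j % 4 = 2
    · rw [if_pos h2, if_pos h2, e4]
      push_cast
      rw [hc]
      field_simp
      ring
    · rw [if_neg h2, if_neg h2, e4]
      push_cast
      rw [hc, show c.eN + 2 * c.k1 + 1 = c.eF + c.k2 + c.k1 by omega]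
      field_simp
      ring

theorem Good.far (_ : c.Good A) (k k' : ℕ) (hk : k < k') (hk' : k' < nK d.nE d.nD)
    (hne : k / 4 ≠ k' / 4) : (c.chain d).pl (k + 1) + c.p d ^ c.k2 ≤ (c.chain d).pr k' := by
  have h1 : (c.chain d).pl (k + 1) ≤ (c.chain d).pl (4 * (k' / 4)) :=
    (c.chain d).pl_mono' (by omega)
  have h2 : (c.chain d).pr (4 * (k' / 4)) ≤ (c.chain d).pr k' := (c.chain d).pr_mono' (by omega)
  have h3 : (c.chain d).R (4 * (k' / 4)) = c.p d ^ c.k2 := by
    simp only [chain]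
    rw [if_neg (by omega), if_neg (by omega)]
  unfold ChD.pr at h2 ⊢
  omega

theorem Good.two_rooms (h : c.Good A) (j : ℕ) (hj : j % 2 = 0) (hm : ¬ isMain d.nE d.nD (j / 4)) :
    100 * (c.chain d).pl (j + 2) ≤ 100 * (c.chain d).pr j + c.p d ^ (c.k1 + 1) := by
  have h3 := h.exps
  have hp := h.p_big d
  have r0 : (c.chain d).ρ j = 0 := by simp only [chain]; rw [if_neg hm]
  have r1 : (c.chain d).ρ (j + 1) = 0 := by
    simp only [chain]; rw [if_neg (by rwa [show (j + 1) / 4 = j / 4 by omega])]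
  have r2 : (c.chain d).R (j + 1) = c.p d ^ c.k1 := by
    simp only [chain]; rw [if_pos (by omega)]
  have ra : (c.chain d).a = c.p d ^ c.k1 := rfl
  have hs : ∀ j, (c.chain d).s j ≤ c.p d ^ c.k1 := fun j =>
    (h.s_le d j).trans (h.pow_le d (by omega))
  have := hs j; have := hs (j + 1); have := hs (j + 1 + 1)
  have h5 : 700 * c.p d ^ c.k1 ≤ c.p d ^ (c.k1 + 1) := by
    rw [pow_succ, mul_comm]; exact Nat.mul_le_mul_left _ (by omega)
  rw [show j + 2 = j + 1 + 1 by ring, ChD.pl_succ', ChD.pl_succ', r0, r1, r2, ra]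
  unfold ChD.pr
  omega

theorem Good.near (_ : c.Good A) (t : ℕ) (ht : 4 * t + 3 < nK d.nE d.nD) :
    (c.chain d).pr (4 * t + 2) = (c.chain d).pl (4 * t + 1 + 1) + c.p d ^ (c.k1 + 1) := by
  have h3 : (c.chain d).R (4 * t + 2) = c.p d ^ (c.k1 + 1) := by
    simp only [chain]
    rw [if_neg (by omega), if_pos (by omega)]
  unfold ChD.pr
  rw [h3]

end Cst

end

end Vale.Agent.P370Z
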