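import Vale.Agent.P370Z.Fin.Par
import Vale.Agent.P370Z.Fin.Blocks

/-! The smooth part of the potential of the nuclei. -/

namespace Vale.Agent.P370Z

open MeasureTheory Finset

noncomputable section

namespace Cst

variable (c : Cst) (d : CD)

/-- the smooth part of the potential -/
def V0 (x : P3) : ℝ := 4 * Real.pi * (c.pH d : ℝ) * (slabPot c.rho (c.lv d) x + c.Ff d x)

/-- the discretization error -/
def DD (x : P3) : ℝ := (c.pH d : ℝ) * discErr (c.m d) c.rho (c.lv d) (c.Ff d) (c.yv d) x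

/-- the frequency of the oscillator -/
def ω : ℝ := 3 * c.om

def u3 (z : ℝ) : ℝ := c.ω ^ 2 * min (z ^ 2) ((c.Lz d : ℝ) ^ 2) / 2 - c.ω / 2

def err : ℝ := c.P d ^ (3 * (c.kL : ℤ) + 12 - 4 * c.km)

/-- What is used about the rational approximations. -/
def NumOK : Prop := ∀ n : ℕ, 1 ≤ n → |4 * Real.pi * c.pHat n - 1| ≤ 1 / n ∧ 1 / 16 ≤ c.pHat n ∧
  c.pHat n ≤ 1 ∧ |(c.kHat n : ℝ) - kap0| ≤ 1 / n

variable {c} {A : ℝ}

theorem NumOK.pH (h : c.NumOK) : |4 * Real.pi * c.pH d - 1| ≤ 1 / c.P d ^ (10 * c.km) ∧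
    1 / 16 ≤ c.pH d ∧ c.pH d ≤ 1 ∧ |(c.kH d : ℝ) - kap0| ≤ 1 / c.P d ^ (10 * c.km) := by
  have := h (c.p d ^ (10 * c.km)) (Nat.one_le_pow _ _ (c.p_pos d))
  simpa only [Nat.cast_pow, P, Cst.pH, Cst.kH] using this

theorem omega_sq : c.ω ^ 2 = 3 * c.rho := by unfold ω rho; push_cast; ring

theorem Good.Lz_le (h : c.Good A) : c.Lz d ≤ c.p d ^ (c.kL + 1) := by
  have hp := h.p_big d
  have h1 : 1 ≤ c.p d ^ c.kL := Nat.one_le_pow _ _ (c.p_pos d)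
  have h2 : c.p d ^ c.kL * 4 ≤ c.p d ^ c.kL * c.p d := Nat.mul_le_mul_left _ (by omega)
  unfold Lz L1
  rw [pow_succ]
  omega

theorem Good.pot_core (h : c.Good A) (hn : c.NumOK) {CF : ℝ} (hCF : CF ≤ A)
    (hF : ∀ x, |c.Ff d x| ≤ CF) :
    (∀ x : P3, (c.E0 d : ℝ) + c.H + c.ω ^ 2 * min (x 2 ^ 2) ((c.Lz d : ℝ) ^ 2) / 2 + c.Ff d x -
      c.err d ≤ c.V0 d x) ∧
    (∀ x : P3, |x 0| ≤ c.P d ^ (c.kL + 1) → |x 1| ≤ c.P d ^ (c.kL + 1) → |x 2| ≤ c.Lz d →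
      c.V0 d x ≤ (c.E0 d : ℝ) + c.H + c.ω ^ 2 * x 2 ^ 2 / 2 + c.Ff d x + c.err d) ∧
    Measurable (slabPot c.rho (c.lv d)) ∧ (∃ B, ∀ x, |c.V0 d x| ≤ B) := by
  have h3 := h.exps
  have hP := h.P2 d
  have hP7 := h.P_big d
  have hLz1 : 1 ≤ c.Lz d := by unfold Lz; omega
  have hLzL : c.Lz d ≤ c.L d := (h.Lz_le d).trans (h.pow_le d (by omega))
  obtain ⟨s1, s2, s3, s4, s5, s6⟩ := slab c.rho (c.L d) (c.Lz d) hLz1 hLzL
  obtain ⟨n1, n2, n3, n4⟩ := hn.pH d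
  have n2' : (1 / 16 : ℝ) ≤ c.pH d := by
    have := (Rat.cast_le (K := ℝ)).2 n2
    push_cast at this
    exact this
  have n3' : (c.pH d : ℝ) ≤ 1 := by exact_mod_cast n3
  set ε : ℝ := 1 / c.P d ^ (10 * c.km) with hε
  have hε0 : 0 ≤ ε := by positivity
  set ρ : ℝ := (c.rho : ℝ) with hρ
  set L : ℝ := (c.L d : ℝ) with hL
  set Z : ℝ := (c.Lz d : ℝ) with hZ
  set L0 : ℝ := c.P d ^ (c.kL + 1) with hL0
  have hρ0 : 0 ≤ ρ := Nat.cast_nonneg _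
  have hZ0 : 0 ≤ Z := Nat.cast_nonneg _
  have hL' : L = c.P d ^ (4 * c.km) := by rw [hL]; unfold Cst.L P; push_cast; rfl
  have hL0' : 0 < L := by rw [hL']; positivity
  -- orders of magnitude
  have oε : Ob (c.P d) ε (-(10 * c.km : ℕ)) := by
    rw [hε, one_div]; exact Ob.inv hP (by rw [zpow_natCast])
  have oρ : Ob (c.P d) (102 * ρ) 1 := Ob.of_le (by positivity) (by
    have : ((1000 * c.rho : ℕ) : ℝ) ≤ c.P d := by unfold P; exact_mod_cast h.rho_le d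
    push_cast at this; linarith)
  have oL : Ob (c.P d) L (4 * c.km : ℕ) := hL' ▸ Ob.npow hP _
  have oL' : c.P d ^ ((4 * c.km : ℕ) : ℤ) ≤ L := by rw [zpow_natCast, hL']
  have oZ : Ob (c.P d) Z (c.kL + 1 : ℕ) := Ob.of_le_zpow hZ0 (by
    rw [zpow_natCast, hZ]; unfold P; exact_mod_cast h.Lz_le d)
  have oL0 : Ob (c.P d) L0 (c.kL + 1 : ℕ) := Ob.npow hP _
  have hCF0 : 0 ≤ CF := (abs_nonneg _).trans (hF 0)
  have oC : Ob (c.P d) CF 1 := Ob.of_le hCF0 (hCF.trans (h.A_le d))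
  have o1 : Ob (c.P d) (ε * (102 * ρ * L * Z + CF)) (3 * (c.kL : ℤ) + 9 - 4 * c.km) :=
    (oε.mul hP (((oρ.mul hP oL).mul hP oZ).add' hP oC (c := 4 * c.km + c.kL + 3)
      (by omega) (by omega))).mono hP (by omega)
  have o2 : Ob (c.P d) (ε * (102 * ρ * L * Z)) (3 * (c.kL : ℤ) + 9 - 4 * c.km) :=
    (oε.mul hP ((oρ.mul hP oL).mul hP oZ)).mono hP (by omega)
  have o3 : Ob (c.P d) (102 * ρ * Z ^ 3 / L) (3 * (c.kL : ℤ) + 9 - 4 * c.km) :=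
    ((oρ.mul hP (oZ.pow hP 3)).div hP oL').mono hP (by omega)
  have o4 : Ob (c.P d) (102 * ρ * (L0 ^ 2 + Z ^ 2) * Z / L) (3 * (c.kL : ℤ) + 9 - 4 * c.km) :=
    (((oρ.mul hP ((oL0.pow hP 2).add hP (oZ.pow hP 2))).mul hP oZ).div hP oL').mono hP (by omega)
  have oerr : ε * (102 * ρ * L * Z + CF) + ε * (102 * ρ * L * Z) + 102 * ρ * Z ^ 3 / L +
      102 * ρ * (L0 ^ 2 + Z ^ 2) * Z / L ≤ c.err d :=
    ((((o1.add hP o2).add' hP o3 (c := 3 * (c.kL : ℤ) + 11 - 4 * c.km) (by omega)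
      (by omega)).add' hP o4 (c := 3 * (c.kL : ℤ) + 12 - 4 * c.km) (by omega) (by omega))).le
  have hpi : 0 < Real.pi := Real.pi_pos
  have hpi3 : 3 < Real.pi := Real.pi_gt_three
  -- the factor in front
  have e1 : ∀ x, |c.V0 d x - (slabPot c.rho (c.lv d) x + c.Ff d x)| ≤
      ε * (102 * ρ * L * Z + CF) := by
    intro x
    have : c.V0 d x - (slabPot c.rho (c.lv d) x + c.Ff d x) =
        (4 * Real.pi * c.pH d - 1) * (slabPot c.rho (c.lv d) x + c.Ff d x) := by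
      unfold V0; ring
    rw [this, abs_mul]
    refine mul_le_mul n1 ((abs_add_le _ _).trans (add_le_add ((s2 x).trans ?_) (hF x)))
      (abs_nonneg _) hε0
    have : 0 ≤ ρ * L * Z := by positivity
    linarith only [this]
  -- the constant
  have e2 : |-(3 * ρ / (4 * Real.pi)) * (2 * Z * L * kap0) + 3 * ρ * Z ^ 2 / 2 -
      ((c.E0 d : ℝ) + c.H)| ≤ ε * (102 * ρ * L * Z) := by
    have h1 : -(3 * ρ / (4 * Real.pi)) * (2 * Z * L * kap0) + 3 * ρ * Z ^ 2 / 2 -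
        ((c.E0 d : ℝ) + c.H) = 6 * ρ * L * Z * (kap0 * ((4 * Real.pi * c.pH d - 1) /
          (4 * Real.pi)) + c.pH d * (c.kH d - kap0)) := by
      unfold E0
      push_cast
      rw [← hρ, ← hL, ← hZ]
      field_simp
      ring
    have h2 : |kap0 * ((4 * Real.pi * c.pH d - 1) / (4 * Real.pi))| ≤ 16 * ε := by
      rw [abs_mul, abs_div, abs_of_nonneg s5, abs_of_pos (by positivity : 0 < 4 * Real.pi)]
      refine mul_le_mul s6 ?_ (by positivity) (by norm_num)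
      rw [div_le_iff₀ (by positivity)]
      nlinarith only [n1, hε0, hpi3]
    have h4 : |(c.pH d : ℝ) * (c.kH d - kap0)| ≤ 1 * ε := by
      rw [abs_mul, abs_of_nonneg (by linarith)]
      exact mul_le_mul n3' n4 (abs_nonneg _) (by norm_num)
    rw [h1, abs_mul, abs_of_nonneg (by positivity)]
    calc 6 * ρ * L * Z * |kap0 * ((4 * Real.pi * c.pH d - 1) / (4 * Real.pi)) +
          c.pH d * (c.kH d - kap0)| ≤ 6 * ρ * L * Z * (16 * ε + 1 * ε) := by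
          gcongr; exact (abs_add_le _ _).trans (add_le_add h2 h4)
      _ = ε * (102 * ρ * L * Z) := by ring
  have p3 : 100 * ρ * Z ^ 3 / L ≤ 102 * ρ * Z ^ 3 / L := by gcongr; norm_num
  have p3' : 0 ≤ 102 * ρ * Z ^ 3 / L := by positivity
  have p4 : 100 * ρ * (L0 ^ 2 + Z ^ 2) * Z / L ≤ 102 * ρ * (L0 ^ 2 + Z ^ 2) * Z / L := by
    gcongr; norm_num
  have p4' : 0 ≤ 102 * ρ * (L0 ^ 2 + Z ^ 2) * Z / L := by positivity
  have hω : c.ω ^ 2 = 3 * ρ := omega_sq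
  refine ⟨fun x => ?_, fun x h0 h1 h2 => ?_, s1, ?_⟩
  · have a1 := abs_le.1 (e1 x)
    have a2 := abs_le.1 e2
    have a3 := s3 x
    rw [hω]
    change _ ≤ slabPot c.rho (c.lv d) x at a3
    linarith [a1.1, a2.1]
  · have a1 := abs_le.1 (e1 x)
    have a2 := abs_le.1 e2
    have a3 := s4 L0 x (by
      rw [hL', hL0, ← pow_one (2 : ℝ)]
      calc (2 : ℝ) ^ 1 * c.P d ^ (c.kL + 1) ≤ c.P d ^ 1 * c.P d ^ (c.kL + 1) := by gcongr
        _ = c.P d ^ (1 + (c.kL + 1)) := by ring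
        _ ≤ _ := pow_le_pow_right₀ (by linarith) (by omega)) h0 h1 h2
    rw [hω]
    change slabPot c.rho (c.lv d) x ≤ _ at a3
    linarith [a1.2, a2.2]
  · refine ⟨ε * (102 * ρ * L * Z + CF) + (100 * ρ * L * Z + CF), fun x => ?_⟩
    have a1 := abs_le.1 (e1 x)
    have a2 := abs_le.1 (s2 x)
    have a3 := abs_le.1 (hF x)
    change _ ≤ slabPot c.rho (c.lv d) x ∧ slabPot c.rho (c.lv d) x ≤ _ at a2
    rw [abs_le]
    constructor <;> linarith [a1.1, a1.2, a2.1, a2.2, a3.1, a3.2]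

end Cst

theorem abs_bilin_le {K : ℕ} {w : ℕ → ℕ → ℝ} {wm : ℝ} (hw : ∀ k l, |w k l| ≤ wm) {a b : ℕ → ℝ}
    (ha : ∀ k < K, 0 ≤ a k) (hb : ∀ k < K, 0 ≤ b k) (ha1 : ∑ k ∈ range K, a k ≤ 1)
    (hb1 : ∑ k ∈ range K, b k ≤ 1) :
    |∑ k ∈ range K, ∑ l ∈ range K, w k l * a k * b l| ≤ wm := by
  have hw0 : 0 ≤ wm := (abs_nonneg _).trans (hw 0 0)
  have ha0 : 0 ≤ ∑ k ∈ range K, a k := sum_nonneg fun k hk => ha k (mem_range.1 hk)
  have hb0 : 0 ≤ ∑ k ∈ range K, b k := sum_nonneg fun k hk => hb k (mem_range.1 hk)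
  calc |∑ k ∈ range K, ∑ l ∈ range K, w k l * a k * b l|
      ≤ ∑ k ∈ range K, ∑ l ∈ range K, wm * a k * b l := by
        refine (abs_sum_le_sum_abs _ _).trans (sum_le_sum fun k hk => ?_)
        refine (abs_sum_le_sum_abs _ _).trans (sum_le_sum fun l hl => ?_)
        have h1 := ha k (mem_range.1 hk)
        have h2 := hb l (mem_range.1 hl)
        rw [abs_mul, abs_mul, abs_of_nonneg h1, abs_of_nonneg h2]
        gcongr
        exact hw k l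
    _ = wm * ((∑ k ∈ range K, a k) * ∑ l ∈ range K, b l) := by
        rw [sum_mul_sum, mul_sum]
        refine sum_congr rfl fun k _ => ?_
        rw [mul_sum]
        exact sum_congr rfl fun l _ => by ring
    _ ≤ wm * (1 * 1) := by gcongr
    _ = wm := by ring

/-- Lower bound and values of the smooth potential `F0`. -/
theorem F0_facts (c : ChD) (w : ℕ → ℕ → ℝ) (H Lc : ℕ) {wm C : ℝ} (hw : ∀ k l, |w k l| ≤ wm)
    (hu : ∀ x : ℝ, |c.u0 x| ≤ C) (hH : 2 * C + wm ≤ H)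
    (hb : ∀ k < c.K, ∀ x : ℝ, 0 ≤ levD 0 (c.bump k) x)
    (hb1 : ∀ x : ℝ, ∑ k ∈ range c.K, levD 0 (c.bump k) x ≤ 1) (x y z : ℝ) :
    c.u0 x + c.u0 y - wm - H ≤ F0 c w H Lc x y z ∧
    (1 ≤ x → x ≤ (c.len : ℝ) - 1 → 1 ≤ y → y ≤ (c.len : ℝ) - 1 → |z| ≤ Lc →
      F0 c w H Lc x y z = c.u0 x + c.u0 y + (∑ k ∈ range c.K, ∑ l ∈ range c.K,
        w k l * levD 0 (c.bump k) x * levD 0 (c.bump l) y) - H) := by
  obtain ⟨f1, f2, f3, f4, f5, f6, f7⟩ := lev_facts c Lc w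
  have hb' := abs_le.1 (abs_bilin_le hw (fun k hk => hb k hk x) (fun k hk => hb k hk y) (hb1 x)
    (hb1 y))
  have hx := abs_le.1 (hu x)
  have hy := abs_le.1 (hu y)
  have hG : G0 c w H x y ≤ 0 := by unfold G0; rw [f7]; linarith
  have hG' : c.u0 x + c.u0 y - wm - H ≤ G0 c w H x y := by unfold G0; rw [f7]; linarith
  refine ⟨hG'.trans ?_, fun h1 h2 h3 h4 h5 => ?_⟩
  · unfold F0
    have h1 : levD 0 (zeta Lc) z * levD 0 c.eta x * levD 0 c.eta y ≤ 1 :=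
      mul_le_one₀ (mul_le_one₀ (f4 z).2 (f1 x).1 (f1 x).2) (f1 y).1 (f1 y).2
    nlinarith
  · unfold F0 G0
    rw [f2 x h1 h2, f2 y h3 h4, f5 z h5, f7]; ring

theorem F0_supp (c : ChD) (w : ℕ → ℕ → ℝ) (H Lc : ℕ) (x y z : ℝ) (h : F0 c w H Lc x y z ≠ 0) :
    x ∈ Set.Icc (0 : ℝ) c.len ∧ y ∈ Set.Icc (0 : ℝ) c.len ∧ |z| ≤ (Lc : ℝ) + 1 := by
  obtain ⟨f1, f2, f3, f4, f5, f6, f7⟩ := lev_facts c Lc w
  unfold F0 at h
  refine ⟨?_, ?_, ?_⟩
  · by_contra h'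
    exact h (by rw [f3 x h']; ring)
  · by_contra h'
    exact h (by rw [f3 y h']; ring)
  · by_contra h'
    exact h (by rw [f6 z (not_le.1 h').le]; ring)

end

end Vale.Agent.P370Z
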