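import Vale.Agent.P370Z.Fin.Pot

/-! The one-dimensional bands, the grid and the discretization for the concrete parameters. -/

namespace Vale.Agent.P370Z

open MeasureTheory Finset

noncomputable section

def Cch : ℝ := chain.choose

def kch : ℕ := chain.choose_spec.choose

def CFf (H : ℕ) : ℝ := (f0_ok H).choose

namespace Cst

theorem one_le_omega {c : Cst} (h : 1 ≤ c.om) : 1 ≤ c.ω := by
  have : (1 : ℝ) ≤ c.om := by exact_mod_cast h
  unfold ω; linarith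

/-- All the constants are large enough. -/
structure Best (c : Cst) (A : ℝ) : Prop extends c.Good A where
  num : c.NumOK
  k_ch : kch ≤ c.kk
  k_grid : grid.choose ≤ c.kk
  k_geo : geo.choose ≤ c.kk
  k_asm : asm3.choose ≤ c.kk
  C_ch : Cch ≤ A
  H_ge : 2 * Cch + 1 ≤ c.H
  C_F : CFf c.H ≤ A
  rho_ge : 2 * CFf c.H ≤ c.rho
  k_disc : (disc (CFf c.H) c.rho (f0_ok c.H).choose_spec.1 rho_ge).choose ≤ c.kk
  om_le : c.ω ≤ A
  C_z : (zosc c.ω (one_le_omega om)).choose ≤ A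

variable (c : Cst) (d : CD)

/-- the exponent of the basic energy scale -/
def ez : ℤ := -(3 * c.km + c.k1 + 1)

/-- the number of rooms -/
abbrev KK : ℕ := nK d.nE d.nD

def z0 : ℕ := c.gp d * (16 * c.km)

variable {c} {A : ℝ}

attribute [local irreducible] kt kT k1 k2 k3 kM kL km eT eN eF eX eY p

theorem Good.T_bd (h : c.Good A) : Ob (c.P d) (c.Tq d) (c.ez + c.kT) ∧
    c.P d ^ (c.ez + c.kT - 1) ≤ (c.Tq d : ℝ) := by
  have h3 := h.exps
  have hP := h.P2 d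
  have e : (c.Tq d : ℝ) = c.P d ^ (c.ez + c.kT) / 2 := by
    rw [show c.ez + c.kT = -((c.eT + 2 * c.k1 : ℕ) : ℤ) by unfold ez; omega, zpow_neg, zpow_natCast]
    unfold Tq P; push_cast; field_simp
  have h0 : 0 < c.P d ^ (c.ez + c.kT) := zpow_pos (by linarith) _
  rw [e]
  refine ⟨Ob.of_le_zpow (by positivity) (by linarith), ?_⟩
  rw [zpow_sub₀ (by linarith), zpow_one]
  gcongr

theorem Good.t_bd (h : c.Good A) : Ob (c.P d) (c.tq d) (c.ez + c.kt) ∧
    c.P d ^ (c.ez + c.kt - 1) ≤ (c.tq d : ℝ) := by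
  have h3 := h.exps
  have hP := h.P2 d
  have e : (c.tq d : ℝ) = c.P d ^ (c.ez + c.kt) / 2 := by
    rw [show c.ez + c.kt = -((c.eN + 2 * c.k1 + 1 : ℕ) : ℤ) by unfold ez; omega, zpow_neg,
      zpow_natCast]
    unfold tq P; push_cast; field_simp
  have h0 : 0 < c.P d ^ (c.ez + c.kt) := zpow_pos (by linarith) _
  rw [e]
  refine ⟨Ob.of_le_zpow (by positivity) (by linarith), ?_⟩
  rw [zpow_sub₀ (by linarith), zpow_one]
  gcongr

theorem Good.b_eq (h : c.Good A) : (c.bq d : ℝ) = c.P d ^ (c.ez + 20) := by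
  have h3 := h.exps
  rw [show c.ez + 20 = -((3 * c.km + c.k1 - 19 : ℕ) : ℤ) by unfold ez; omega, zpow_neg,
    zpow_natCast]
  unfold bq P; push_cast; field_simp

theorem Good.len_le' (h : c.Good A) : ((c.chain d).len : ℝ) ≤ c.P d ^ (c.k1 + c.k3 + 2) := by
  unfold P; exact_mod_cast h.len_le d

theorem Good.len_ge' (h : c.Good A) : c.P d ≤ ((c.chain d).len : ℝ) := by
  unfold P; exact_mod_cast h.len_ge d

theorem KK_le : (KK d : ℝ) ≤ c.P d := by unfold P; exact_mod_cast c.K_le d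

theorem KK2_le : (KK d : ℝ) ^ 2 ≤ c.P d := by unfold P; exact_mod_cast c.K2_le d

/-- the band of the chain -/
theorem Best.band1 (h : c.Best A) : ∃ (e : ℕ → ℝ → ℝ) (sb : ℕ → ℝ) (Γ τ δm εb : ℝ),
    Band1 (KK d) (c.chain d).len (c.chain d).u0 e (fun k => levD 0 ((c.chain d).bump k))
      (lapM (KK d) (c.chain d).hop) (fun k => (c.chain d).pr k) (fun k => (c.chain d).pl (k + 1))
      sb Cch Γ τ δm τ εb τ ∧
    (c.P d ^ c.kM)⁻¹ ≤ Γ ∧ Γ ≤ (c.P d)⁻¹ ∧ 0 ≤ τ ∧ 0 ≤ δm ∧ 0 ≤ εb ∧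
    Ob (c.P d) τ (-2 * c.km) ∧ Ob (c.P d) δm (c.ez - 18) ∧ Ob (c.P d) εb (c.eX - c.km) ∧
    (∀ k, isMain d.nE d.nD (k / 4) → sb k ≤ 1 / c.P d ^ (2 * (5 * c.kk + 179))) := by
  have h3 := h.exps
  have hP := h.P2 d
  obtain ⟨hC1, hch⟩ := _root_.Vale.Agent.P370Z.chain.choose_spec.choose_spec
  change 1 ≤ Cch at hC1
  have hCP : Cch ≤ c.P d := h.C_ch.trans (h.A_le d)
  have oC : Ob (c.P d) Cch 1 := Ob.of_le (by linarith) hCP
  obtain ⟨oT, hT⟩ := h.T_bd d
  obtain ⟨ot, ht⟩ := h.t_bd d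
  have hT0 : (0 : ℝ) ≤ c.Tq d := le_trans (zpow_nonneg (by linarith) _) hT
  have htT : (c.tq d : ℝ) ≤ c.Tq d := (ot.mono hP (by omega)).le.trans hT
  have oθ : Ob (c.P d) (c.th d) ((c.k3 : ℤ) - c.eT) := Ob.zp hP _
  have hθ0 : 0 ≤ c.th d := zpow_nonneg (by linarith) _
  have oM : Ob (c.P d) ((c.P d ^ c.kM) ^ kch) c.eX := by
    have := (Ob.npow hP c.kM).pow_le hP (by omega) h.k_ch
    exact this.mono hP (by unfold eX; push_cast; rw [mul_comm])
  have oτ : Ob (c.P d) ((c.P d ^ c.kM) ^ kch * c.th d) (-2 * c.km) :=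
    (oM.mul hP oθ).mono hP (by omega)
  have hl := h.len_le' d
  have hl' := h.len_ge' d
  obtain ⟨e, he⟩ := hch (c.chain d) (c.p d ^ c.k1) (c.th d) (c.Tq d) (c.P d ^ c.kM) (h.chain_OK d)
    (fun j h0 hj => by
      rw [h.hop_eq d j h0 hj]; unfold hopG; split_ifs
      · exact le_rfl
      · exact htT) hT0
    (le_trans hP (le_self_pow₀ (by linarith) (by omega)))
    (hl.trans (pow_le_pow_right₀ (by linarith) (by omega))) (oτ.le_one hP (by omega))
  have hP0 : 0 < c.P d := by linarith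
  have hl0 : (0 : ℝ) < (c.chain d).len := by linarith
  refine ⟨e, _, _, _, _, _, he, ?_, ?_, by positivity, by positivity, by positivity, oτ, ?_, ?_, ?_⟩
  · rw [one_div]
    refine inv_anti₀ (by positivity) ?_
    calc Cch * ((c.chain d).len : ℝ) ^ 2 ≤ c.P d * (c.P d ^ (c.k1 + c.k3 + 2)) ^ 2 := by gcongr
      _ = c.P d ^ (2 * (c.k1 + c.k3 + 2) + 1) := by ring
      _ ≤ _ := pow_le_pow_right₀ (by linarith) (by omega)
  · rw [one_div]
    refine inv_anti₀ (by linarith) ?_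
    change c.P d ≤ Cch * _
    nlinarith only [hC1, hl', hP]
  · refine Ob.add' hP ((oC.mul hP oT).div hP (b := c.k1) ?_) (oM.mul hP (oθ.pow hP 2)) ?_ ?_
    · rw [zpow_natCast]; unfold P; push_cast; exact le_rfl
    · omega
    · unfold ez; omega
  · exact (oM.mul hP (Ob.sqrt hP (a := -c.km) (oθ.mono hP (by omega)))).mono hP (by omega)
  · intro k hk
    have e1 : (c.chain d).ρ k = c.gp d * c.k3 := by simp only [chain]; rw [if_pos hk]
    have e2 : (((c.chain d).a : ℕ) : ℝ) = c.P d ^ c.k1 := by simp only [chain, P]; push_cast; rfl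
    change Cch * (1 / 4) ^ (c.chain d).ρ k / ((c.chain d).a : ℕ) ≤ _
    rw [e1, e2, one_div_pow, four_pow_real]
    calc Cch * (1 / c.P d ^ c.k3) / c.P d ^ c.k1 ≤ c.P d * (1 / c.P d ^ c.k3) / c.P d ^ c.k1 := by
          gcongr
      _ = 1 / c.P d ^ (c.k1 + c.k3 - 1) := by
          rw [show c.k1 + c.k3 - 1 = (c.k1 - 1) + c.k3 by omega, pow_add,
            show c.P d ^ c.k1 = c.P d * c.P d ^ (c.k1 - 1) by
              rw [← pow_succ', show c.k1 - 1 + 1 = c.k1 by omega]]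
          field_simp
      _ ≤ _ := one_div_le_one_div_of_le (by positivity) (pow_le_pow_right₀ (by linarith) (by omega))

theorem Good.z0_le (h : c.Good A) : c.z0 d + 1 ≤ c.p d ^ 2 := by
  have h5 := h.km_le d
  have h6 := c.gp_le_p d
  have h7 := h.p_big d
  have : c.gp d * (16 * c.km) ≤ c.p d * (16 * c.km) := Nat.mul_le_mul_right _ h6
  have : c.p d * (16 * c.km + 1) ≤ c.p d * c.p d := Nat.mul_le_mul_left _ (by omega)
  unfold z0
  rw [pow_two]
  rw [mul_add] at this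
  omega

theorem Good.z0_le' (h : c.Good A) : (c.z0 d : ℝ) + 1 ≤ c.P d ^ 2 := by
  unfold P; exact_mod_cast h.z0_le d

theorem L1_eq : (c.L1 d : ℝ) = c.P d ^ c.kL := by unfold L1 P; push_cast; rfl

/-- the band of the oscillator -/
theorem Best.zband (h : c.Best A) : ∃ (e : ℝ → ℝ) (Γ τ δ : ℝ),
    ZBand c.ω (c.z0 d) (c.L1 d) e (c.P d) Γ τ δ ∧ (c.P d)⁻¹ ≤ Γ ∧ 0 ≤ τ ∧ 0 ≤ δ ∧
    Ob (c.P d) τ (1 - 8 * c.km) ∧ Ob (c.P d) δ (2 - 2 * c.kL) := by
  have h3 := h.exps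
  have hP := h.P2 d
  obtain ⟨hC1, hz⟩ := (zosc c.ω (one_le_omega h.om)).choose_spec
  have hCP := h.C_z.trans (h.A_le d)
  set C := (zosc c.ω (one_le_omega h.om)).choose
  have oC : Ob (c.P d) C 1 := Ob.of_le (by linarith) hCP
  have hg := c.gp_pos d
  obtain ⟨e, he⟩ := hz (c.z0 d) (c.L1 d) (Nat.mul_pos hg (by omega))
    ((h.z0_le' d).trans (by rw [L1_eq]; exact pow_le_pow_right₀ (by linarith) (by omega)))
  have o1 : Ob (c.P d) ((1 / 2 : ℝ) ^ c.z0 d) (-(8 * c.km : ℕ)) := by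
    have : (1 / 2 : ℝ) ^ c.z0 d = c.P d ^ (-(8 * c.km : ℕ) : ℤ) := by
      rw [zpow_neg, zpow_natCast, ← four_pow_real, ← inv_pow, z0,
        show c.gp d * (16 * c.km) = 2 * (c.gp d * (8 * c.km)) by ring, pow_mul]
      norm_num
    rw [this]; exact Ob.zp hP _
  refine ⟨e, _, _, _, he.monoC hCP, ?_, by positivity, by positivity,
    (oC.mul hP o1).mono hP (by omega), ?_⟩
  · rw [one_div]; exact inv_anti₀ (by linarith) hCP
  · refine Ob.add' hP (oC.div hP (b := (2 * c.kL : ℕ)) ?_) (oC.mul hP o1) (by omega) (by omega)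
    rw [zpow_natCast, L1_eq, ← pow_mul, mul_comm]

theorem wr_eq : c.wr d = wGrid d.nE d.nD (fun e k => (d.Uq e k : ℝ)) (fun e k => (d.Wq e k : ℝ))
    (c.Tq d : ℝ) (c.tq d) (c.bq d) := by
  funext k l
  unfold wr wq
  rw [wGrid_cast]

/-- the amplitude of the leads -/
def al : ℝ := 3 / √(68 * nW d.nE d.nD)

/-- the grid model -/
theorem Best.gridm (h : c.Best A) : (∀ k l, |c.wr d k l| ≤ 8 * c.Tq d) ∧
    ∃ (O : Core d.nE d.nD ⊕ Fin d.nD → Fin (KK d) × Fin (KK d) → ℝ)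
      (Rc : Core d.nE d.nD → Fin (KK d) × Fin (KK d) → ℝ) (δ τ : ℝ),
      GridOK (gridM (KK d) (lapM (KK d) (c.chain d).hop) (c.wr d)) O Rc (c.Tc d) (c.bq d / 40) δ τ ∧
      GridGeo O d.blkF (fun e k => al d * d.UF e k) (fun e k => al d * d.WF e k)
        (fun e => d.nE + d.nD + e) (isMain d.nE d.nD) ∧ 0 ≤ δ ∧ 0 ≤ τ ∧
      Ob (c.P d) δ (c.ez - 18) ∧ Ob (c.P d) τ (c.ez + c.kt + c.kk) := by
  have h3 := h.exps
  have hP := h.P2 d
  obtain ⟨k1, k2, k3, k4⟩ := kit_struct d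
  obtain ⟨oT, hT⟩ := h.T_bd d
  obtain ⟨ot, ht⟩ := h.t_bd d
  have ob : Ob (c.P d) (c.bq d) (c.ez + 20) := h.b_eq d ▸ Ob.zp hP _
  have oS : Ob (c.P d) (c.P d ^ grid.choose) c.kk :=
    (Ob.npow hP _).mono hP (by exact_mod_cast h.k_grid)
  have hb0 : (0 : ℝ) < c.bq d := by rw [h.b_eq d]; exact zpow_pos (by linarith) _
  have ht0 : (0 : ℝ) < c.tq d := lt_of_lt_of_le (zpow_pos (by linarith) _) ht
  have hT0 : (0 : ℝ) < c.Tq d := lt_of_lt_of_le (zpow_pos (by linarith) _) hT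
  obtain ⟨g1, O, Rc, g2, g3⟩ := grid.choose_spec d.nE d.nD (fun e k => (d.Uq e k : ℝ))
    (fun e k => (d.Wq e k : ℝ)) d.blkF (c.Tq d) (c.tq d) (c.bq d) (c.P d) k4
    (by unfold CD.nD CD.nq; omega) k1 k2 k3 hP (KK_le d) hb0
    (((oS.mul hP ob).mono hP (by omega)).le.trans ht)
    (((oS.mul hP ot).mono hP (by omega)).le.trans hT)
  rw [← wr_eq] at g1 g2
  have eT : ((c.Tc d : ℚ) : ℝ) = 2 * c.Tq d - c.tq d - c.bq d := by unfold Tc; push_cast; rfl
  rw [← gridM_congr _ _ _ (h.hop_eq d), ← eT] at g2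
  refine ⟨g1, O, Rc, _, _, g2, g3, ?_, ?_, ?_, ?_⟩
  · positivity
  · positivity
  · exact (oS.mul hP (((ob.pow hP 2).div hP ht).add' hP ((ot.pow hP 2).div hP hT)
      (c := c.ez - 18 - c.kk) (by omega) (by omega))).mono hP (by omega)
  · exact (oS.mul hP ot).mono hP (by omega)

theorem Best.wr_le (h : c.Best A) : Ob (c.P d) (8 * c.Tq d) (c.ez + c.kT + 1) ∧
    8 * (c.Tq d : ℝ) ≤ 1 := by
  have h3 := h.exps
  have hP := h.P2 d
  have hP7 := h.P_big d
  have o8 : Ob (c.P d) 8 1 := Ob.of_le (by norm_num) (by linarith)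
  have := (o8.mul hP (h.T_bd d).1).mono hP (b := c.ez + c.kT + 1) (by omega)
  exact ⟨this, this.le_one hP (by unfold ez; omega)⟩

theorem Best.Ff_ok (h : c.Best A) : BdM 6 (CFf c.H) (c.Ff d) ∧
    ∀ (i : Fin 3) (x : P3), pd i (c.Ff d) x =
      dF0 (c.chain d) (c.wr d) c.H (2 * c.L1 d) i (x 0) (x 1) (x 2) :=
  (f0_ok c.H).choose_spec.2 (c.chain d) _ _ (c.wr d) (2 * c.L1 d) (h.chain_OK d)
    fun k l => ((h.gridm d).1 k l).trans (h.wr_le d).2

theorem Best.val (h : c.Best A) : (c.inst d).Valid ∧ (∀ e : ℕ, (c.inst d).Gap e) ∧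
    NodesOK (c.m d) c.rho (c.lv d) (c.Ff d) (c.yv d) (2 / c.Del d) ∧
    ∀ x, scPot (c.inst d) (c.lam d) x =
      -(c.pH d : ℝ) * nuD (c.m d) c.rho (c.lv d) (c.yv d) (fun t => 1 / nrm (x - t)) :=
  valid c d (CFf c.H) h.om h.kk (by have := h.rho; omega) h.rho_ge (h.Ff_ok d).1 (h.Ff_ok d).2
    (h.num.pH d).2.1 (h.num.pH d).2.2.1

theorem Good.Ff_supp (h : c.Good A) (x : P3) (hx : c.Ff d x ≠ 0) (k : Fin 3) :
    |x k| ≤ (c.lv d k : ℝ) - 1 ∧ |x k| ≤ c.P d ^ (c.kL + 1) := by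
  have h3 := h.exps
  have hP := h.P2 d
  obtain ⟨s0, s1, s2⟩ := F0_supp _ _ _ _ _ _ _ hx
  have hl := h.len_le' d
  have h1 : c.P d ^ (c.k1 + c.k3 + 2) ≤ c.P d ^ (c.kL + 1) :=
    pow_le_pow_right₀ (by linarith) (by omega)
  have h2 : c.P d ^ (c.kL + 1) ≤ (c.L d : ℝ) - 1 := by
    have e : (c.L d : ℝ) = c.P d ^ (4 * c.km) := by unfold Cst.L P; push_cast; rfl
    have h4 : c.P d ^ (c.kL + 1 + 1) ≤ c.P d ^ (4 * c.km) :=
      pow_le_pow_right₀ (by linarith) (by omega)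
    have h5 : 1 ≤ c.P d ^ (c.kL + 1) := one_le_pow₀ (by linarith)
    rw [pow_succ] at h4
    rw [e]; nlinarith only [h4, h5, hP]
  have h4 : (c.Lz d : ℝ) ≤ c.P d ^ (c.kL + 1) := by unfold P; exact_mod_cast h.Lz_le d
  have h5 : (c.Lz d : ℝ) = 2 * c.L1 d + 2 := by unfold Lz; push_cast; rfl
  push_cast at s2
  fin_cases k
  · change |x 0| ≤ (c.L d : ℝ) - 1 ∧ |x 0| ≤ _
    rw [abs_of_nonneg s0.1]; constructor <;> linarith [s0.2]
  · change |x 1| ≤ (c.L d : ℝ) - 1 ∧ |x 1| ≤ _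
    rw [abs_of_nonneg s1.1]; constructor <;> linarith [s1.2]
  · change |x 2| ≤ (c.Lz d : ℝ) - 1 ∧ |x 2| ≤ _
    constructor <;> linarith

/-- the potential of the nuclei -/
theorem Best.scPot_eq (h : c.Best A) :
    scPot (c.inst d) (c.lam d) = fun x => c.V0 d x + c.DD d x := by
  funext x
  have h1 := poisson c.rho (c.lv d) (c.Ff d) (CFf c.H) (BdM.le_order (k := 4) (h.Ff_ok d).1)
    (fun x hx k => (h.Ff_supp d x hx k).1) x
  rw [(h.val d).2.2.2 x]
  unfold V0 DD discErr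
  rw [← h1]
  have := Real.pi_pos
  field_simp
  ring

/-- the discretization error -/
theorem Best.discm (h : c.Best A) : ∃ η1 η2 : ℝ,
    DiscOK (c.DD d) (c.P d ^ (c.k1 + c.k3 + 2)) η1 η2 ∧ 0 ≤ η1 ∧ 0 ≤ η2 ∧
    Ob (c.P d) η1 (c.eY - 4 * c.km) ∧ Ob (c.P d) η2 (c.eY - 2 * c.km) := by
  have h3 := h.exps
  have hP := h.P2 d
  have hd := (disc (CFf c.H) c.rho (f0_ok c.H).choose_spec.1 h.rho_ge).choose_spec
  have hk := h.k_disc
  set κ := (disc (CFf c.H) c.rho (f0_ok c.H).choose_spec.1 h.rho_ge).choose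
  have hm : (c.m d : ℝ) = c.P d ^ c.km := by unfold Cst.m P; push_cast; rfl
  have hL : (c.L d : ℝ) = c.P d ^ (4 * c.km) := by unfold Cst.L P; push_cast; rfl
  have hm1 : 1 ≤ c.m d := Nat.one_le_pow _ _ (c.p_pos d)
  have hL1 : 1 ≤ c.L d := Nat.one_le_pow _ _ (c.p_pos d)
  have hLzL : c.Lz d ≤ c.L d := (h.Lz_le d).trans (h.pow_le d (by omega))
  have hP0 : 0 < c.P d := by linarith
  have hD := hd (c.m d) (c.L d) (c.lv d) (c.Ff d) (c.yv d) (2 / c.Del d) (c.P d ^ (c.kL + 1))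
    (c.P d ^ (c.kL + 2)) hm1
    (fun k => by
      fin_cases k
      · exact hL1
      · exact hL1
      · change 1 ≤ c.Lz d; unfold Lz; omega)
    (fun k => by
      fin_cases k
      · exact le_rfl
      · exact le_rfl
      · exact hLzL)
    (h.Ff_ok d).1 (fun x hx k => (h.Ff_supp d x hx k).1) (fun x hx k => (h.Ff_supp d x hx k).2)
    (le_trans hP (le_self_pow₀ (by linarith) (by omega))) (by positivity)
    (pow_le_pow_right₀ (by linarith) (by omega))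
    (by
      rw [hm, hL, ← pow_add, Real.log_pow]
      have h1 : Real.log (c.P d) ≤ c.P d := (Real.log_le_sub_one_of_pos hP0).trans (by linarith)
      have h2 : ((c.km + 4 * c.km : ℕ) : ℝ) ≤ c.P d := by
        unfold P; exact_mod_cast (by have := h.km_le d; omega)
      calc ((c.km + 4 * c.km : ℕ) : ℝ) * Real.log (c.P d) ≤ c.P d * c.P d := by
            gcongr; exact Real.log_nonneg (by linarith)
        _ = c.P d ^ 2 := by ring
        _ ≤ _ := pow_le_pow_right₀ (by linarith) (by omega))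
    (h.val d).2.2.1 (by positivity)
    (by
      have h1 : (c.m d : ℝ) * c.L d + 1 ≤ c.P d ^ (5 * c.km + 1) := by
        rw [hm, hL, ← pow_add, show c.km + 4 * c.km = 5 * c.km by ring, pow_succ]
        have : 1 ≤ c.P d ^ (5 * c.km) := one_le_pow₀ (by linarith)
        nlinarith only [this, hP]
      have h2 : ((c.m d : ℝ) * c.L d + 1) ^ κ ≤ c.P d ^ ((5 * c.km + 1) * c.kk) := by
        rw [pow_mul]
        exact (pow_le_pow_left₀ (add_nonneg (mul_nonneg (Nat.cast_nonneg _) (Nat.cast_nonneg _))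
          zero_le_one) h1 κ).trans
          (pow_le_pow_right₀ (one_le_pow₀ (by linarith)) hk)
      have h4 : (c.Del d : ℝ) = 6 * c.m d * c.P d ^ ((5 * c.km + 1) * c.kk) := by
        unfold Del P; push_cast; rfl
      have h5 : (1 : ℝ) ≤ c.m d := by exact_mod_cast hm1
      have h6 : 0 < c.P d ^ ((5 * c.km + 1) * c.kk) := by positivity
      rw [h4, div_mul_eq_mul_div, div_le_one (by positivity)]
      nlinarith only [h2, h5, h6])
  obtain ⟨n1, n2, n3, n4⟩ := h.num.pH d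
  have n2' : (0 : ℝ) ≤ c.pH d := by exact_mod_cast le_trans (by norm_num) n2
  have n3' : (c.pH d : ℝ) ≤ 1 := by exact_mod_cast n3
  have oM : Ob (c.P d) ((c.P d ^ (c.kL + 2)) ^ κ) c.eY := by
    have := (Ob.npow hP (c.kL + 2)).pow_le hP (by omega) hk
    exact this.mono hP (by unfold eY; push_cast; rw [mul_comm])
  refine ⟨_, _, hD.smul (pow_le_pow_right₀ (by linarith) (by omega)) n2' n3', by positivity,
    by positivity, ?_, ?_⟩
  · refine (oM.div hP (b := (c.km * 4 : ℕ)) ?_).mono hP (by omega)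
    rw [hm, zpow_natCast, pow_mul]
  · refine (oM.div hP (b := (c.km * 2 : ℕ)) ?_).mono hP (by omega)
    rw [hm, zpow_natCast, pow_mul]

end Cst

end

end Vale.Agent.P370Z
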