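import Vale.Agent.P370Z.Red

/-! Small tools for the assembly: orders of magnitude, monotonicity of the interfaces. -/

namespace Vale.Agent.P370Z

open MeasureTheory Finset

noncomputable section

/-- `X` is at most `P ^ n` in absolute value. -/
def Ob (P X : ℝ) (n : ℤ) : Prop := |X| ≤ P ^ n

namespace Ob

variable {P X Y : ℝ} {a b : ℤ}

theorem le (h : Ob P X a) : X ≤ P ^ a := (le_abs_self X).trans h

theorem mono (hP : 2 ≤ P) (h : Ob P X a) (hab : a ≤ b) : Ob P X b :=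
  le_trans h (zpow_le_zpow_right₀ (by linarith) hab)

theorem mul (hP : 2 ≤ P) (h : Ob P X a) (h' : Ob P Y b) : Ob P (X * Y) (a + b) := by
  unfold Ob at *
  rw [abs_mul, zpow_add₀ (by linarith)]
  exact mul_le_mul h h' (abs_nonneg _) ((abs_nonneg _).trans h)

theorem add (hP : 2 ≤ P) (h : Ob P X a) (h' : Ob P Y a) : Ob P (X + Y) (a + 1) := by
  unfold Ob at *
  have h0 : 0 < P ^ a := zpow_pos (by linarith) a
  rw [zpow_add₀ (by linarith), zpow_one]
  calc |X + Y| ≤ |X| + |Y| := abs_add_le _ _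
    _ ≤ P ^ a * 2 := by linarith
    _ ≤ P ^ a * P := by gcongr

theorem add' (hP : 2 ≤ P) (h : Ob P X a) (h' : Ob P Y b) {c : ℤ} (ha : a < c) (hb : b < c) :
    Ob P (X + Y) c := by
  have := (h.mono hP (b := c - 1) (by omega)).add hP (h'.mono hP (b := c - 1) (by omega))
  simpa using this

theorem const (h : |X| ≤ P) : Ob P X 1 := by simpa [Ob] using h

theorem of_le (h0 : 0 ≤ X) (h : X ≤ P) : Ob P X 1 := const (by rwa [abs_of_nonneg h0])

theorem of_le_one (h0 : 0 ≤ X) (h : X ≤ 1) : Ob P X 0 := by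
  simpa [Ob, abs_of_nonneg h0] using h

theorem of_le_zpow (h0 : 0 ≤ X) (h : X ≤ P ^ a) : Ob P X a := by
  simpa [Ob, abs_of_nonneg h0] using h

theorem of_abs_le (h : |X| ≤ |Y|) (h' : Ob P Y a) : Ob P X a := le_trans h h'

theorem self (hP : 2 ≤ P) : Ob P P 1 := of_le (by linarith) le_rfl

theorem npow (hP : 2 ≤ P) (n : ℕ) : Ob P (P ^ n) n := by
  unfold Ob
  rw [abs_of_nonneg (by positivity), zpow_natCast]

theorem zp (hP : 2 ≤ P) (n : ℤ) : Ob P (P ^ n) n := by
  unfold Ob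
  rw [abs_of_nonneg (zpow_nonneg (by linarith) n)]

theorem pow (_ : 2 ≤ P) (h : Ob P X a) (k : ℕ) : Ob P (X ^ k) (a * k) := by
  unfold Ob at *
  rw [abs_pow, zpow_mul, zpow_natCast]
  exact pow_le_pow_left₀ (abs_nonneg _) h k

theorem inv (hP : 2 ≤ P) (h : P ^ a ≤ X) : Ob P X⁻¹ (-a) := by
  unfold Ob
  have h0 : 0 < P ^ a := zpow_pos (by linarith) a
  rw [abs_of_nonneg (inv_nonneg.2 (by linarith)), zpow_neg]
  exact inv_anti₀ h0 h

theorem div (hP : 2 ≤ P) (h : Ob P X a) (h' : P ^ b ≤ Y) : Ob P (X / Y) (a - b) := by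
  rw [div_eq_mul_inv, sub_eq_add_neg]
  exact h.mul hP (inv hP h')

theorem sqrt (hP : 2 ≤ P) (h : Ob P X (2 * a)) : Ob P (√X) a := by
  unfold Ob at *
  have h0 : 0 < P ^ a := zpow_pos (by linarith) a
  rw [abs_of_nonneg (Real.sqrt_nonneg _)]
  apply Real.sqrt_le_iff.2 ⟨h0.le, ?_⟩
  rw [← zpow_natCast, ← zpow_mul, mul_comm]
  exact (le_abs_self X).trans h

theorem neg (h : Ob P X a) : Ob P (-X) a := by simpa [Ob] using h

theorem sub' (hP : 2 ≤ P) (h : Ob P X a) (h' : Ob P Y b) {c : ℤ} (ha : a < c) (hb : b < c) :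
    Ob P (X - Y) c := by
  rw [sub_eq_add_neg]
  exact h.add' hP h'.neg ha hb

theorem le_one (hP : 2 ≤ P) (h : Ob P X a) (ha : a ≤ 0) : X ≤ 1 := by
  simpa using (h.mono hP ha).le

/-- a power with a smaller exponent -/
theorem pow_le (hP : 2 ≤ P) (h : Ob P X a) (ha : 0 ≤ a) {k κ : ℕ} (hk : k ≤ κ) :
    Ob P (X ^ k) (a * κ) :=
  (h.pow hP k).mono hP (mul_le_mul_of_nonneg_left (by exact_mod_cast hk) ha)

end Ob

/-! ### Monotonicity of the interfaces -/

theorem Bd.mono_fin : ∀ {k : ℕ} {C C' : ℝ} {f : ℝ → ℝ}, Bd k C (fun _ => 1) f → C ≤ C' →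
    Bd k C' (fun _ => 1) f
  | 0, _, _, _, h, hC => ⟨h.1, fun x => (h.2 x).trans (by simpa using hC)⟩
  | _ + 1, _, _, _, h, hC => ⟨h.1, fun x => (h.2.1 x).trans (by simpa using hC), h.2.2.mono_fin hC⟩

theorem Band1.monoC {K : ℕ} {Λ : ℝ} {u : ℝ → ℝ} {e b : ℕ → ℝ → ℝ} {H : ℕ → ℕ → ℝ}
    {zl zr sb : ℕ → ℝ} {C Γ τ δm δg εb εz C' : ℝ}
    (h : Band1 K Λ u e b H zl zr sb C Γ τ δm δg εb εz) (hC : C ≤ C') :
    Band1 K Λ u e b H zl zr sb C' Γ τ δm δg εb εz :=
  { h with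
    u_bd := fun x => (h.u_bd x).trans hC
    e_bd := fun k hk => (h.e_bd k hk).mono_fin hC }

theorem ZBand.monoC {ω z0 L1 : ℝ} {e : ℝ → ℝ} {C Γ τ δg C' : ℝ} (h : ZBand ω z0 L1 e C Γ τ δg)
    (hC : C ≤ C') : ZBand ω z0 L1 e C' Γ τ δg :=
  { h with e_bd := h.e_bd.mono_fin hC }

theorem BdM.le_order : ∀ {k j : ℕ} {C : ℝ} {f : P3 → ℝ}, BdM (j + k) C f → BdM j C f
  | 0, _, _, _, h => h
  | k + 1, 0, C, f, h => by
      have h' : BdM (k + 1) C f := by simpa using h
      exact ⟨h'.1.continuous, h'.2.1⟩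
  | k + 1, j + 1, C, f, h => by
      have h' : BdM (j + (k + 1) + 1) C f := by
        have : j + 1 + (k + 1) = j + (k + 1) + 1 := by ring
        rwa [this] at h
      exact ⟨h'.1, h'.2.1, fun i => (h'.2.2 i).le_order⟩

theorem BdM.cont_bd : ∀ {k : ℕ} {C : ℝ} {f : P3 → ℝ}, BdM k C f → Continuous f ∧ ∀ x, |f x| ≤ C
  | 0, _, _, h => h
  | _ + 1, _, _, h => ⟨h.1.continuous, h.2.1⟩

theorem DiscOK.smul {D : P3 → ℝ} {L0 L0' η1 η2 a : ℝ} (h : DiscOK D L0 η1 η2) (hL : L0' ≤ L0)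
    (ha0 : 0 ≤ a) (ha : a ≤ 1) : DiscOK (fun x => a * D x) L0' η1 η2 where
  pot := ⟨h.pot.1.const_mul a, h.pot.2.smul a⟩
  weak := fun w Cw hw hs => by
    have h1 := h.weak w Cw hw fun x hx k => (hs x hx k).trans hL
    have : ∫ x, a * D x * w x = a * ∫ x, D x * w x := by
      rw [← integral_const_mul]; simp only [mul_assoc]
    rw [this, abs_mul, abs_of_nonneg ha0]
    calc a * |∫ x, D x * w x| ≤ 1 * |∫ x, D x * w x| := by gcongr
      _ ≤ Cw * η1 := by simpa using h1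
  int := fun u hu => by
    have := (h.int u hu).const_mul (a ^ 2)
    simpa only [mul_pow, mul_assoc] using this
  strong := fun u hu => by
    have h1 := h.strong u hu
    have : ∫ x, (a * D x) ^ 2 * u x ^ 2 = a ^ 2 * ∫ x, D x ^ 2 * u x ^ 2 := by
      rw [← integral_const_mul]; simp only [mul_pow, mul_assoc]
    rw [this]
    have h0 : 0 ≤ ∫ x, D x ^ 2 * u x ^ 2 := integral_nonneg fun x => by positivity
    calc a ^ 2 * ∫ x, D x ^ 2 * u x ^ 2 ≤ 1 * ∫ x, D x ^ 2 * u x ^ 2 := by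
          gcongr; exact pow_le_one₀ ha0 ha
      _ ≤ _ := by simpa using h1

theorem PotOK.add_bdd {V D : P3 → ℝ} (hD : PotOK D) (hV : Measurable V) {B : ℝ}
    (hB : ∀ x, |V x| ≤ B) : PotOK fun x => V x + D x := by
  refine ⟨hV.add hD.1, LocallyIntegrable.add ?_ hD.2⟩
  refine (locallyIntegrable_const B).mono hV.aestronglyMeasurable
    (Filter.Eventually.of_forall fun x => ?_)
  rw [Real.norm_eq_abs, Real.norm_eq_abs]
  exact (hB x).trans (le_abs_self B)

section Scale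

variable {ι L B D Ec : Type}

theorem Tight.abs_le [Fintype Ec] [DecidableEq D] {U : Ec → D → ℝ} (h : Tight U) (e : Ec)
    (d : D) : |U e d| ≤ 1 := by
  have h1 := h d d
  have h2 : U e d * U e d ≤ ∑ e, U e d * U e d :=
    single_le_sum (f := fun e => U e d * U e d) (fun e _ => mul_self_nonneg _) (mem_univ e)
  rw [h1, idm, if_pos rfl] at h2
  exact abs_le_one_iff_mul_self_le_one.2 h2

theorem BlkOK.smul {blk : D → B} {U W : Ec → D → ℝ} (h : BlkOK blk U W) (a : ℝ) :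
    BlkOK blk (fun e d => a * U e d) (fun e d => a * W e d) :=
  ⟨fun e d d' h1 h2 => h.blkU e d d' (right_ne_zero_of_mul h1) (right_ne_zero_of_mul h2),
   fun e d d' h1 h2 => h.blkW e d d' (right_ne_zero_of_mul h1) (right_ne_zero_of_mul h2)⟩

theorem HF_scale [Fintype ι] [DecidableEq ι] [Fintype L] [DecidableEq L] [Fintype Ec]
    (U W : Ec → L → ℝ) (a : ℝ) (c : (ι → L) → ℝ) :
    HF (fun e d => a * U e d) (fun e d => a * W e d) c = a ^ 4 * HF U W c := by
  unfold HF tens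
  simp only [Finset.mul_sum]
  refine sum_congr rfl fun e _ => sum_congr rfl fun i _ => sum_congr rfl fun j hj =>
    sum_congr rfl fun l _ => sum_congr rfl fun l' _ => ?_
  have hji : j ≠ i := (mem_erase.1 hj).1
  have key : ∀ k, two i j (outer fun d => a * U e d) (outer fun d => a * W e d) k (l k) (l' k) =
      (if k = i then a ^ 2 else 1) * (if k = j then a ^ 2 else 1) *
        two i j (outer (U e)) (outer (W e)) k (l k) (l' k) := by
    intro k
    unfold two outer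
    by_cases h1 : k = i
    · subst h1
      simp only [if_true, if_neg hji.symm]; ring
    · by_cases h2 : k = j
      · subst h2
        simp only [if_neg h1, if_true]; ring
      · simp only [if_neg h1, if_neg h2]; ring
  simp only [key, prod_mul_distrib, prod_ite_eq', mem_univ, if_true]
  ring

variable [Fintype B] [DecidableEq B] [Fintype D] [DecidableEq D] [Fintype Ec]

theorem KitLow.smul {blk : D → B} {U W : Ec → D → ℝ} {b : ℝ} (h : KitLow blk U W b) (a : ℝ) :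
    KitLow blk (fun e d => a * U e d) (fun e d => a * W e d) (a ^ 4 * b) where
  low := fun ψ hψ => by
    rw [HF_scale, mul_assoc]
    exact mul_le_mul_of_nonneg_left (h.low ψ hψ) (by positivity)
  pen := fun β c hc => by
    have h1 := mul_le_mul_of_nonneg_left (h.pen β c hc) (show 0 ≤ a ^ 4 by positivity)
    rw [mul_assoc]
    refine h1.trans (le_of_eq ?_)
    rw [Finset.mul_sum]
    refine sum_congr rfl fun e _ => ?_
    have : ∑ d, ∑ d', a * U e d * (a * W e d') * c d d' =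
        a ^ 2 * ∑ d, ∑ d', U e d * W e d' * c d d' := by
      simp only [Finset.mul_sum]
      exact sum_congr rfl fun d _ => sum_congr rfl fun d' _ => by ring
    rw [this]; ring

theorem KitUp.smul {blk : D → B} {U W : Ec → D → ℝ} {b : ℝ} (h : KitUp blk U W b) (a : ℝ) :
    KitUp blk (fun e d => a * U e d) (fun e d => a * W e d) (a ^ 4 * b) := by
  obtain ⟨ψ, h1, h2, h3⟩ := h
  refine ⟨ψ, h1, h2, ?_⟩
  rw [HF_scale, mul_assoc]
  exact mul_le_mul_of_nonneg_left h3 (by positivity)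

end Scale

/-! ### Casts -/

theorem lapM_cast (K : ℕ) (c : ℕ → ℚ) (k l : ℕ) :
    ((lapM K c k l : ℚ) : ℝ) = lapM K (fun j => (c j : ℝ)) k l := by
  unfold lapM
  split_ifs <;> push_cast <;> rfl

theorem hopG_cast (T t : ℚ) : (fun j => ((hopG T t j : ℚ) : ℝ)) = hopG (T : ℝ) (t : ℝ) := by
  funext j
  unfold hopG
  split_ifs <;> rfl

theorem wGrid_cast (nE nD : ℕ) (U W : ℕ → ℕ → ℚ) (T t β : ℚ) (k l : ℕ) :
    ((wGrid nE nD U W T t β k l : ℚ) : ℝ) =
      wGrid nE nD (fun e d => (U e d : ℝ)) (fun e d => (W e d : ℝ)) (T : ℝ) t β k l := by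
  unfold wGrid
  rw [Rat.cast_sub, Rat.cast_sub, lapM_cast, lapM_cast, hopG_cast]
  congr 2
  unfold wPre cpl
  split_ifs <;> push_cast <;> rfl

theorem lapM_congr (K : ℕ) (c c' : ℕ → ℝ) (h : ∀ j, 0 < j → j < K → c j = c' j) {k l : ℕ}
    (hk : k < K) (hl : l < K) : lapM K c k l = lapM K c' k l := by
  unfold lapM
  split_ifs with h1 h2 h3 h3 h2 h3
  · rw [h k h2 hk, h (k + 1) (by omega) h3]
  · rw [h k h2 hk]
  · rw [h (k + 1) (by omega) h3]
  · rfl
  · rw [h l (by omega) hl]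
  · rw [h k (by omega) hk]
  · rfl

theorem gridM_congr (K : ℕ) (c c' : ℕ → ℝ) (h : ∀ j, 0 < j → j < K → c j = c' j)
    (w : ℕ → ℕ → ℝ) : gridM K (lapM K c) w = gridM K (lapM K c') w := by
  funext κ κ'
  unfold gridM
  rw [lapM_congr K c c' h κ.1.2 κ'.1.2, lapM_congr K c c' h κ.2.2 κ'.2.2]

end

end Vale.Agent.P370Z
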